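import Vale.Agent.Lib.P245.Kernel

/-!
# Gaussian concentration above the scale of exponential concentration.
-/

open MeasureTheory Real Set
open scoped ENNReal RealInnerProductSpace

namespace Vale.Agent.Lib.P245

variable {n : ℕ} {μ : Measure (E n)} {A T : ℝ}

/-- The tilted density. -/
noncomputable def tilt (ρ : E n → ℝ) (T : ℝ) (y x : E n) : ℝ≥0∞ :=
  ENNReal.ofReal (ρ x) * wt T y x

lemma tilt_strong {ρ : E n → ℝ} (h0 : ∀ x, 0 ≤ ρ x)
    (hmid : ∀ x z : E n, ρ x * ρ z ≤ ρ ((1 / 2 : ℝ) • (x + z)) ^ 2) (T : ℝ) (y : E n) :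
    StrongMid T (tilt ρ T y) := by
  intro x z
  unfold tilt
  have e : wt T y x * wt T y z * eo (T / 4 * ‖x - z‖ ^ 2) = wt T y ((1 / 2 : ℝ) • (x + z)) ^ 2 := by
    unfold wt
    rw [← eo_add, ← eo_add, eo_sq, mid_norm_sq, inner_smul_right, inner_add_right]
    congr 1
    ring
  have h1 : ENNReal.ofReal (ρ x) * ENNReal.ofReal (ρ z) ≤
      ENNReal.ofReal (ρ ((1 / 2 : ℝ) • (x + z))) ^ 2 := by
    rw [← ENNReal.ofReal_mul (h0 x), ← ENNReal.ofReal_pow (h0 _)]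
    exact ENNReal.ofReal_le_ofReal (hmid x z)
  calc ENNReal.ofReal (ρ x) * wt T y x * (ENNReal.ofReal (ρ z) * wt T y z) *
        eo (T / 4 * ‖x - z‖ ^ 2)
      = (ENNReal.ofReal (ρ x) * ENNReal.ofReal (ρ z)) *
          (wt T y x * wt T y z * eo (T / 4 * ‖x - z‖ ^ 2)) := by ring
    _ ≤ ENNReal.ofReal (ρ ((1 / 2 : ℝ) • (x + z))) ^ 2 * wt T y ((1 / 2 : ℝ) • (x + z)) ^ 2 := by
        rw [e]
        gcongr
    _ = (ENNReal.ofReal (ρ ((1 / 2 : ℝ) • (x + z))) * wt T y ((1 / 2 : ℝ) • (x + z))) ^ 2 := by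
        rw [mul_pow]

/-- The one step recursion for the Laplace transform. -/
theorem recursion [IsProbabilityMeasure μ] (hn : 1 ≤ n) (h : SG μ A) (hT0 : 0 < T)
    (hT : T ≤ 1 / (16 * A)) {ρ : E n → ℝ} (hρm : Measurable ρ) (h0 : ∀ x, 0 ≤ ρ x)
    (hmid : ∀ x z : E n, ρ x * ρ z ≤ ρ ((1 / 2 : ℝ) • (x + z)) ^ 2)
    (hμ : μ = volume.withDensity fun x => ENNReal.ofReal (ρ x))
    {G : E n → ℝ} (hG : ∀ x z, G x - G z ≤ ‖x - z‖) (hGm : Measurable G) {l : ℝ} (hl : 0 ≤ l) :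
    ∫⁻ x, eo (l * G x) ∂μ ≤ eo (l ^ 2 / (4 * T) + (3 + 800 * A ^ 2 * T ^ 2 * n)) *
      (∫⁻ x, eo (3 / 4 * l * G x) ∂μ) ^ (4 / 3 : ℝ) := by
  have hρE : Measurable fun x => ENNReal.ofReal (ρ x) := ENNReal.measurable_ofReal.comp hρm
  have hconv : ∀ φ : E n → ℝ≥0∞, Measurable φ → ∀ y : E n,
      ∫⁻ x, φ x * tilt ρ T y x = ∫⁻ x, φ x * wt T y x ∂μ := by
    intro φ hφ y
    have e0 := lintegral_withDensity_eq_lintegral_mul (volume : Measure (E n)) hρE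
      (g := fun x => φ x * wt T y x) (hφ.mul (measurable_wt T y))
    rw [hμ, e0]
    refine lintegral_congr fun x => ?_
    simp only [Pi.mul_apply]
    unfold tilt
    ring
  have htm : ∀ y : E n, Measurable (tilt ρ T y) := fun y => hρE.mul (measurable_wt T y)
  -- pointwise in y
  have hpt : ∀ y : E n, (∫⁻ x, eo (l * G x) * wt T y x ∂μ) ≤
      eo (l ^ 2 / (4 * T)) * ((∫⁻ x, eo (l / 2 * G x) * wt T y x ∂μ) ^ 2 * (Zf μ T y)⁻¹) := by
    intro y
    have hF : ∀ x z : E n, (l / 2 * G x) - (l / 2 * G z) ≤ (l / 2) * ‖x - z‖ := by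
      intro x z
      have := mul_le_mul_of_nonneg_left (hG x z) (by positivity : 0 ≤ l / 2)
      linarith
    have hpl := pl_lip_two hT0 (htm y) (tilt_strong h0 hmid T y) hF (by fun_prop)
    have e1 : ∀ x, 2 * (l / 2 * G x) = l * G x := fun x => by ring
    simp_rw [e1] at hpl
    rw [hconv _ (by fun_prop), hconv _ (by fun_prop)] at hpl
    have hZ : ∫⁻ x, tilt ρ T y x = Zf μ T y := by
      have := hconv (fun _ => 1) measurable_const y
      simpa [Zf] using this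
    rw [hZ] at hpl
    have hZ0 := Zf_ne_zero h hT0.le y
    have hZt := Zf_ne_top h hT0.le y
    have e2 : (l / 2) ^ 2 / T = l ^ 2 / (4 * T) := by
      field_simp
      ring
    rw [e2] at hpl
    calc ∫⁻ x, eo (l * G x) * wt T y x ∂μ
        = (∫⁻ x, eo (l * G x) * wt T y x ∂μ) * Zf μ T y * (Zf μ T y)⁻¹ := by
          rw [mul_assoc, ENNReal.mul_inv_cancel hZ0 hZt, mul_one]
      _ ≤ eo (l ^ 2 / (4 * T)) * (∫⁻ x, eo (l / 2 * G x) * wt T y x ∂μ) ^ 2 * (Zf μ T y)⁻¹ := by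
          gcongr
      _ = _ := by ring
  -- integrate
  have hleft : ∫⁻ ξ, ∫⁻ x, eo (l * G x) * wt T (Real.sqrt T • ξ) x ∂μ ∂(gam n) =
      ∫⁻ x, eo (l * G x) ∂μ := by
    rw [lintegral_lintegral_swap (by
      apply Measurable.aemeasurable
      unfold wt
      fun_prop)]
    refine lintegral_congr fun x => ?_
    rw [lintegral_const_mul _ (by
      unfold wt
      fun_prop), lintegral_wt_gam hT0.le, mul_one]
  have hc := hc (f := fun x => eo (l / 2 * G x)) hn h hT0 hT (by fun_prop)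
  have e3 : ∀ x, eo (l / 2 * G x) ^ (3 / 2 : ℝ) = eo (3 / 4 * l * G x) := by
    intro x
    rw [eo_rpow _ (by norm_num)]
    congr 1
    ring
  simp_rw [e3] at hc
  rw [← hleft]
  calc ∫⁻ ξ, ∫⁻ x, eo (l * G x) * wt T (Real.sqrt T • ξ) x ∂μ ∂(gam n)
      ≤ ∫⁻ ξ, eo (l ^ 2 / (4 * T)) * ((∫⁻ x, eo (l / 2 * G x) * wt T (Real.sqrt T • ξ) x ∂μ) ^ 2 *
          (Zf μ T (Real.sqrt T • ξ))⁻¹) ∂(gam n) := lintegral_mono fun ξ => hpt _
    _ = eo (l ^ 2 / (4 * T)) * ∫⁻ ξ, ((∫⁻ x, eo (l / 2 * G x) * wt T (Real.sqrt T • ξ) x ∂μ) ^ 2 *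
          (Zf μ T (Real.sqrt T • ξ))⁻¹) ∂(gam n) := by
        rw [lintegral_const_mul]
        apply Measurable.mul
        · apply Measurable.pow_const
          apply Measurable.lintegral_prod_right'
            (f := fun q : E n × E n => eo (l / 2 * G q.2) * wt T (Real.sqrt T • q.1) q.2)
          unfold wt
          fun_prop
        · exact ((measurable_Zf T).comp (by fun_prop)).inv
    _ ≤ eo (l ^ 2 / (4 * T)) * (eo (3 + 800 * A ^ 2 * T ^ 2 * n) *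
          (∫⁻ x, eo (3 / 4 * l * G x) ∂μ) ^ (4 / 3 : ℝ)) := by
        gcongr
    _ = _ := by
        rw [← mul_assoc, ← eo_add]

/-- Power mean on a probability measure, in the form used for the base of the iteration. -/
lemma base_bound [IsProbabilityMeasure μ] {G : E n → ℝ} (hGm : Measurable G) {ψ l : ℝ} (hψ : 0 < ψ)
    (hb : ∫⁻ x, eo (G x / ψ) ∂μ ≤ eo 1) (hl : 0 ≤ l) (hl1 : l * ψ ≤ 1) :
    ∫⁻ x, eo (l * G x) ∂μ ≤ eo (l * ψ) := by
  have hH := ENNReal.lintegral_mul_norm_pow_le (μ := μ) (f := fun x => eo (G x / ψ))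
    (g := fun _ => (1 : ℝ≥0∞)) (p := l * ψ) (q := 1 - l * ψ)
    (by fun_prop) aemeasurable_const (by positivity) (by linarith) (by ring)
  simp only [ENNReal.one_rpow, mul_one, lintegral_one, measure_univ] at hH
  have e : ∀ x, eo (G x / ψ) ^ (l * ψ) = eo (l * G x) := by
    intro x
    rw [eo_rpow _ (by positivity)]
    congr 1
    field_simp
  simp_rw [e] at hH
  refine hH.trans ?_
  calc (∫⁻ x, eo (G x / ψ) ∂μ) ^ (l * ψ) ≤ eo 1 ^ (l * ψ) := by
        gcongr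
    _ = eo (l * ψ) := by
        rw [eo_rpow _ (by positivity), one_mul]

/-- The iterated recursion. -/
theorem iterate_bound [IsProbabilityMeasure μ] {G : E n → ℝ} (hGm : Measurable G) {ψ M : ℝ}
    (hψ : 0 < ψ) (hM : 0 ≤ M) (hb : ∫⁻ x, eo (G x / ψ) ∂μ ≤ eo 1) (hT0 : 0 < T)
    (hrec : ∀ l : ℝ, 0 ≤ l → ∫⁻ x, eo (l * G x) ∂μ ≤ eo (l ^ 2 / (4 * T) + M) *
      (∫⁻ x, eo (3 / 4 * l * G x) ∂μ) ^ (4 / 3 : ℝ)) (k : ℕ) :
    ∀ l : ℝ, 0 ≤ l → l * ψ ≤ (4 / 3) ^ k →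
      ∫⁻ x, eo (l * G x) ∂μ ≤ eo (l ^ 2 / T + l * ψ + 3 * M * ((4 / 3) ^ k - 1)) := by
  induction k with
  | zero =>
    intro l hl hl1
    simp only [pow_zero] at hl1
    refine (base_bound hGm hψ hb hl hl1).trans (eo_le ?_)
    simp only [pow_zero, sub_self, mul_zero, add_zero]
    have : 0 ≤ l ^ 2 / T := by positivity
    linarith
  | succ k ih =>
    intro l hl hl1
    have h1 := ih (3 / 4 * l) (by positivity) (by
      have : (4 / 3 : ℝ) ^ (k + 1) = (4 / 3) ^ k * (4 / 3) := pow_succ _ _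
      rw [this] at hl1
      nlinarith)
    refine (hrec l hl).trans ?_
    calc eo (l ^ 2 / (4 * T) + M) * (∫⁻ x, eo (3 / 4 * l * G x) ∂μ) ^ (4 / 3 : ℝ)
        ≤ eo (l ^ 2 / (4 * T) + M) *
          eo ((3 / 4 * l) ^ 2 / T + 3 / 4 * l * ψ + 3 * M * ((4 / 3) ^ k - 1)) ^ (4 / 3 : ℝ) := by
          gcongr
      _ = eo (l ^ 2 / T + l * ψ + 3 * M * ((4 / 3) ^ (k + 1) - 1)) := by
          rw [eo_rpow _ (by norm_num), ← eo_add]
          congr 1
          rw [pow_succ]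
          field_simp
          ring

/-- The global Laplace bound. -/
theorem laplace_bound [IsProbabilityMeasure μ] {G : E n → ℝ} (hGm : Measurable G) {ψ M : ℝ}
    (hψ : 0 < ψ) (hM : 0 ≤ M) (hb : ∫⁻ x, eo (G x / ψ) ∂μ ≤ eo 1) (hT0 : 0 < T)
    (hrec : ∀ l : ℝ, 0 ≤ l → ∫⁻ x, eo (l * G x) ∂μ ≤ eo (l ^ 2 / (4 * T) + M) *
      (∫⁻ x, eo (3 / 4 * l * G x) ∂μ) ^ (4 / 3 : ℝ)) {l : ℝ} (hl : 0 ≤ l) :
    ∫⁻ x, eo (l * G x) ∂μ ≤ eo (l ^ 2 / T + l * ψ * (4 * M + 1)) := by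
  have hlψ : 0 ≤ l * ψ := by positivity
  by_cases h1 : l * ψ ≤ 1
  · refine (base_bound hGm hψ hb hl h1).trans (eo_le ?_)
    have : 0 ≤ l ^ 2 / T := by positivity
    nlinarith
  push Not at h1
  -- minimal k
  have hex : ∃ k : ℕ, l * ψ ≤ (4 / 3 : ℝ) ^ k :=
    (pow_unbounded_of_one_lt (l * ψ) (by norm_num : (1 : ℝ) < 4 / 3)).imp fun _ h => h.le
  classical
  set k := Nat.find hex with hk
  have hk1 : l * ψ ≤ (4 / 3 : ℝ) ^ k := Nat.find_spec hex
  have hk0 : k ≠ 0 := by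
    intro h0
    rw [h0, pow_zero] at hk1
    linarith
  obtain ⟨j, hj⟩ := Nat.exists_eq_succ_of_ne_zero hk0
  have hk2 : (4 / 3 : ℝ) ^ j < l * ψ := by
    have := Nat.find_min hex (m := j) (by rw [← hk, hj]; exact Nat.lt_succ_self j)
    exact not_le.1 this
  have hpow : (4 / 3 : ℝ) ^ k ≤ 4 / 3 * (l * ψ) := by
    rw [hj, pow_succ]
    nlinarith
  refine (iterate_bound hGm hψ hM hb hT0 hrec k l hl hk1).trans (eo_le ?_)
  have h3 : 3 * M * ((4 / 3) ^ k - 1) ≤ 4 * M * (l * ψ) := by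
    have : (4 / 3 : ℝ) ^ k - 1 ≤ 4 / 3 * (l * ψ) := by linarith
    nlinarith
  nlinarith

/-- Chernoff. -/
theorem chernoff [IsProbabilityMeasure μ] {G : E n → ℝ} (hGm : Measurable G) {B r : ℝ}
    (hT0 : 0 < T) (hL : ∀ l : ℝ, 0 ≤ l → ∫⁻ x, eo (l * G x) ∂μ ≤ eo (l ^ 2 / T + l * B))
    (hr : 2 * B ≤ r) (hr0 : 0 ≤ r) :
    μ {x | r ≤ G x} ≤ eo (-(r ^ 2 * T / 16)) := by
  set l := r * T / 4 with hl
  have hl0 : 0 ≤ l := by positivity
  have hm := mul_meas_ge_le_lintegral (μ := μ) (f := fun x => eo (l * G x)) (by fun_prop) (eo (l * r))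
  have h3 : {x : E n | r ≤ G x} ⊆ {x | eo (l * r) ≤ eo (l * G x)} := by
    intro x hx
    simp only [Set.mem_ofPred_eq] at hx ⊢
    apply eo_le
    gcongr
  calc μ {x | r ≤ G x}
      = eo (-(l * r)) * (eo (l * r) * μ {x | r ≤ G x}) := by
        rw [← mul_assoc, mul_comm (eo (-(l * r))), eo_mul_neg, one_mul]
    _ ≤ eo (-(l * r)) * (eo (l * r) * μ {x | eo (l * r) ≤ eo (l * G x)}) := by
        gcongr
    _ ≤ eo (-(l * r)) * eo (l ^ 2 / T + l * B) := by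
        gcongr
        exact hm.trans (hL l hl0)
    _ ≤ eo (-(r ^ 2 * T / 16)) := by
        rw [← eo_add]
        apply eo_le
        have e1 : l ^ 2 / T = l * r / 4 := by
          rw [hl]
          field_simp
        have e2 : l * r = r ^ 2 * T / 4 := by
          rw [hl]
          ring
        have h4 : l * B ≤ l * (r / 2) := by
          apply mul_le_mul_of_nonneg_left _ hl0
          linarith
        rw [e1]
        nlinarith

/-- Markov at the exponential scale. -/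
lemma markov_exp [IsProbabilityMeasure μ] {G : E n → ℝ} (hGm : Measurable G) {ψ : ℝ}
    (hb : ∫⁻ x, eo (G x / ψ) ∂μ ≤ eo 1) (hψ : 0 < ψ) (r : ℝ) :
    μ {x | r ≤ G x} ≤ eo (1 - r / ψ) := by
  have hm := mul_meas_ge_le_lintegral (μ := μ) (f := fun x => eo (G x / ψ)) (by fun_prop) (eo (r / ψ))
  have h3 : {x : E n | r ≤ G x} ⊆ {x | eo (r / ψ) ≤ eo (G x / ψ)} := by
    intro x hx
    simp only [Set.mem_ofPred_eq] at hx ⊢
    apply eo_le
    gcongr
  calc μ {x | r ≤ G x}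
      = eo (-(r / ψ)) * (eo (r / ψ) * μ {x | r ≤ G x}) := by
        rw [← mul_assoc, mul_comm (eo (-(r / ψ))), eo_mul_neg, one_mul]
    _ ≤ eo (-(r / ψ)) * (eo (r / ψ) * μ {x | eo (r / ψ) ≤ eo (G x / ψ)}) := by
        gcongr
    _ ≤ eo (-(r / ψ)) * eo 1 := by
        gcongr
        exact hm.trans hb
    _ = eo (1 - r / ψ) := by
        rw [← eo_add]
        congr 1
        ring

/-- Gaussian concentration above the exponential scale. -/
theorem concentration [IsProbabilityMeasure μ] (hn : 1 ≤ n) (h : SG μ A)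
    {ρ : E n → ℝ} (hρm : Measurable ρ) (h0 : ∀ x, 0 ≤ ρ x)
    (hmid : ∀ x z : E n, ρ x * ρ z ≤ ρ ((1 / 2 : ℝ) • (x + z)) ^ 2)
    (hμ : μ = volume.withDensity fun x => ENNReal.ofReal (ρ x))
    {G : E n → ℝ} (hG : ∀ x z, G x - G z ≤ ‖x - z‖) (hGm : Measurable G) {ψ : ℝ} (hψ : 0 < ψ)
    (hb : ∫⁻ x, eo (G x / ψ) ∂μ ≤ eo 1) {r : ℝ} (hr0 : 0 ≤ r) :
    μ {x | r ≤ G x} ≤
      eo (1 - r ^ 2 / (16 * (16 * A + 52 * ψ ^ 2 + (12800 * ψ ^ 2 * A ^ 2 * n) ^ (1 / 3 : ℝ)))) := by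
  have hA := h.pos
  set W := (12800 * ψ ^ 2 * A ^ 2 * n) ^ (1 / 3 : ℝ) with hW
  have hW0 : 0 ≤ W := by positivity
  have hW3 : W ^ 3 = 12800 * ψ ^ 2 * A ^ 2 * n := by
    rw [hW, ← Real.rpow_natCast, ← Real.rpow_mul (by positivity)]
    norm_num
  set S := 16 * A + 52 * ψ ^ 2 + W with hS
  have hS0 : 0 < S := by positivity
  set T₀ := 1 / S with hT₀
  have hT0 : 0 < T₀ := by positivity
  have hT : T₀ ≤ 1 / (16 * A) := by
    apply one_div_le_one_div_of_le (by positivity)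
    rw [hS]
    nlinarith [sq_nonneg ψ]
  set M := 3 + 800 * A ^ 2 * T₀ ^ 2 * n with hM
  have hM0 : 0 ≤ M := by positivity
  have hrec := fun (l : ℝ) (hl : 0 ≤ l) =>
    recursion (l := l) hn h hT0 hT hρm h0 hmid hμ hG hGm hl
  have hL := fun (l : ℝ) (hl : 0 ≤ l) =>
    laplace_bound hGm hψ hM0 hb hT0 (fun l hl => hrec l hl) hl
  by_cases hbig : S / ψ ≤ r
  · -- large deviations: Chernoff
    have hB : 2 * (ψ * (4 * M + 1)) ≤ r := by
      refine le_trans ?_ hbig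
      rw [le_div_iff₀ hψ]
      rw [hM]
      have e1 : ψ ^ 2 * (A ^ 2 * T₀ ^ 2 * n) * 6400 * S ^ 2 = S ^ 2 * T₀ ^ 2 * (6400 * ψ ^ 2 * A ^ 2 * n) := by
        ring
      have hT2 : S ^ 2 * T₀ ^ 2 = 1 := by
        rw [hT₀]
        field_simp
      have hW4 : 6400 * ψ ^ 2 * A ^ 2 * n * 2 = W ^ 3 := by
        rw [hW3]
        ring
      have hS3 : W ^ 3 ≤ S ^ 3 := by
        gcongr
        rw [hS]
        nlinarith [sq_nonneg ψ]
      have h7 : ψ ^ 2 * (A ^ 2 * T₀ ^ 2 * n) * 6400 * 2 ≤ S := by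
        have h8 : ψ ^ 2 * (A ^ 2 * T₀ ^ 2 * n) * 6400 * 2 = T₀ ^ 2 * W ^ 3 := by
          rw [← hW4]
          ring
        rw [h8]
        calc T₀ ^ 2 * W ^ 3 ≤ T₀ ^ 2 * S ^ 3 := by gcongr
          _ = (S ^ 2 * T₀ ^ 2) * S := by ring
          _ = S := by rw [hT2, one_mul]
      have h9 : 52 * ψ ^ 2 ≤ S := by
        rw [hS]
        nlinarith
      nlinarith
    have hc := chernoff (B := ψ * (4 * M + 1)) hGm hT0 (fun l hl => by
      refine (hL l hl).trans (eo_le (le_of_eq ?_))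
      ring) hB hr0
    refine hc.trans (eo_le ?_)
    have e : r ^ 2 * T₀ / 16 = r ^ 2 / (16 * S) := by
      rw [hT₀]
      field_simp
    rw [e]
    linarith
  · -- small deviations: Markov
    push Not at hbig
    refine (markov_exp hGm hb hψ r).trans (eo_le ?_)
    have h1 : r ^ 2 / (16 * S) ≤ r / ψ := by
      rw [div_le_div_iff₀ (by positivity) hψ]
      rw [lt_div_iff₀ hψ] at hbig
      nlinarith
    linarith

end Vale.Agent.Lib.P245
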