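import Vale.Agent.Lib.P245.Defs
import Vale.Agent.Lib.P245.Conc

/-!
# From the hypotheses of the problem to the working hypotheses.
-/

open MeasureTheory Real Set
open scoped ENNReal RealInnerProductSpace

namespace Vale.Agent.Lib.P245

variable {n : ℕ} {μ : Measure (E n)}

/-- Log-concavity in multiplicative form. -/
lemma IsLogConcaveDensity.rpow_le {ρ : E n → ℝ} (h : IsLogConcaveDensity ρ) (x z : E n) {t : ℝ}
    (h0 : 0 < t) (h1 : t < 1) :
    ρ x ^ (1 - t) * ρ z ^ t ≤ ρ ((1 - t) • x + t • z) := by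
  obtain ⟨hnn, hconv, hconc⟩ := h
  have h1t : 0 < 1 - t := by linarith
  rcases (hnn x).eq_or_lt with hx | hx
  · rw [← hx, Real.zero_rpow h1t.ne', zero_mul]
    exact hnn _
  rcases (hnn z).eq_or_lt with hz | hz
  · rw [← hz, Real.zero_rpow h0.ne', mul_zero]
    exact hnn _
  have hm : (1 - t) • x + t • z ∈ {x | 0 < ρ x} := hconv hx hz h1t.le h0.le (by ring)
  have hc := hconc.2 (x := x) (y := z) hx hz h1t.le h0.le (by ring)
  simp only [smul_eq_mul] at hc
  have hm' : 0 < ρ ((1 - t) • x + t • z) := hm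
  calc ρ x ^ (1 - t) * ρ z ^ t
      = Real.exp ((1 - t) * Real.log (ρ x) + t * Real.log (ρ z)) := by
        rw [Real.rpow_def_of_pos hx, Real.rpow_def_of_pos hz, ← Real.exp_add]
        congr 1
        ring
    _ ≤ Real.exp (Real.log (ρ ((1 - t) • x + t • z))) := Real.exp_le_exp.2 hc
    _ = ρ ((1 - t) • x + t • z) := Real.exp_log hm'

lemma IsLogConcaveDensity.mid {ρ : E n → ℝ} (h : IsLogConcaveDensity ρ) (x z : E n) :
    ρ x * ρ z ≤ ρ ((1 / 2 : ℝ) • (x + z)) ^ 2 := by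
  have h1 := h.rpow_le x z (t := 1 / 2) (by norm_num) (by norm_num)
  have e : (1 - (1 / 2 : ℝ)) • x + (1 / 2 : ℝ) • z = (1 / 2 : ℝ) • (x + z) := by
    rw [smul_add]
    norm_num
  rw [e] at h1
  have hx := h.1 x
  have hz := h.1 z
  have e2 : (1 - (1 / 2 : ℝ)) = 1 / 2 := by norm_num
  rw [e2] at h1
  calc ρ x * ρ z = (ρ x ^ (1 / 2 : ℝ) * ρ z ^ (1 / 2 : ℝ)) ^ 2 := by
        rw [mul_pow, ← Real.rpow_natCast, ← Real.rpow_mul hx, ← Real.rpow_natCast,
          ← Real.rpow_mul hz]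
        norm_num
    _ ≤ _ := by gcongr

lemma exp_le_add_exp_sq (s : ℝ) : Real.exp s ≤ s + Real.exp (s ^ 2) := by
  by_cases h : |s| ≤ 1
  · have h1 := Real.abs_exp_sub_one_sub_id_le h
    have h2 := (abs_le.1 h1).2
    have h3 := Real.add_one_le_exp (s ^ 2)
    linarith
  · push Not at h
    rcases le_total 0 s with hs | hs
    · rw [abs_of_nonneg hs] at h
      have h1 : Real.exp s ≤ Real.exp (s ^ 2) := Real.exp_le_exp.2 (by nlinarith)
      linarith
    · rw [abs_of_nonpos hs] at h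
      have h1 : Real.exp s ≤ 1 := Real.exp_le_one_iff.2 hs
      have h3 := Real.add_one_le_exp (s ^ 2)
      nlinarith

lemma two_le_eo_one : (2 : ℝ≥0∞) ≤ eo 1 := by
  unfold eo
  rw [← ENNReal.ofReal_ofNat]
  apply ENNReal.ofReal_le_ofReal
  have := Real.add_one_le_exp (1 : ℝ)
  linarith

/-- From linear subgaussianity to the mgf bound. -/
theorem sg_of_subgaussian [IsProbabilityMeasure μ] {a : ℝ} (ha : 0 < a) (hs : IsLinSubgaussian μ a)
    (hc : IsCenteredMeasure μ) : SG μ (a ^ 2) := by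
  refine ⟨by positivity, ?_, ?_⟩
  · intro w
    by_cases hw : w = 0
    · subst hw
      simp
    have hl : 0 < ‖w‖ := norm_pos_iff.2 hw
    set l := ‖w‖ with hl'
    set θ : E n := l⁻¹ • w with hθ
    have hθ1 : ‖θ‖ = 1 := by
      rw [hθ, norm_smul, Real.norm_of_nonneg (by positivity), ← hl']
      field_simp
    have hwθ : ∀ x : E n, ⟪w, x⟫ = l * ⟪x, θ⟫ := by
      intro x
      rw [hθ, inner_smul_right, real_inner_comm]
      field_simp
    have hb := hs θ hθ1
    have hb' : ∫⁻ x, eo (⟪x, θ⟫ ^ 2 / a ^ 2) ∂μ ≤ eo 1 := hb.trans two_le_eo_one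
    have hm : Measurable fun x : E n => ⟪x, θ⟫ := by fun_prop
    by_cases hcase : l * a ≤ 1
    · -- small w
      have hp0 : 0 ≤ (l * a) ^ 2 := by positivity
      have hp1 : (l * a) ^ 2 ≤ 1 := by
        have : 0 ≤ l * a := by positivity
        nlinarith
      -- power mean
      have hH := ENNReal.lintegral_mul_norm_pow_le (μ := μ)
        (f := fun x : E n => eo (⟪x, θ⟫ ^ 2 / a ^ 2))
        (g := fun _ => (1 : ℝ≥0∞)) (p := (l * a) ^ 2) (q := 1 - (l * a) ^ 2)
        (by fun_prop) aemeasurable_const hp0 (by linarith) (by ring)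
      simp only [ENNReal.one_rpow, mul_one, lintegral_one, measure_univ] at hH
      have e1 : ∀ x : E n, eo (⟪x, θ⟫ ^ 2 / a ^ 2) ^ ((l * a) ^ 2) = eo ((l * ⟪x, θ⟫) ^ 2) := by
        intro x
        rw [eo_rpow _ hp0]
        congr 1
        field_simp
      simp_rw [e1] at hH
      have hB : ∫⁻ x, eo ((l * ⟪x, θ⟫) ^ 2) ∂μ ≤ eo ((l * a) ^ 2) := by
        refine hH.trans ?_
        calc (∫⁻ x, eo (⟪x, θ⟫ ^ 2 / a ^ 2) ∂μ) ^ ((l * a) ^ 2)
            ≤ eo 1 ^ ((l * a) ^ 2) := by gcongr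
          _ = eo ((l * a) ^ 2) := by
            rw [eo_rpow _ hp0, one_mul]
      -- integrability
      have hint2 : Integrable (fun x : E n => Real.exp ((l * ⟪x, θ⟫) ^ 2)) μ := by
        refine ⟨(by fun_prop : Measurable fun x : E n => Real.exp ((l * ⟪x, θ⟫) ^ 2)).aestronglyMeasurable, ?_⟩
        rw [hasFiniteIntegral_iff_ofReal (Filter.Eventually.of_forall fun x => (Real.exp_pos _).le)]
        exact lt_of_le_of_lt hB (lt_top_iff_ne_top.2 (eo_ne_top _))
      have hint1 : Integrable (fun x : E n => l * ⟪x, θ⟫) μ := by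
        refine hint2.mono' (by fun_prop : Measurable fun x : E n => l * ⟪x, θ⟫).aestronglyMeasurable
          (Filter.Eventually.of_forall fun x => ?_)
        rw [Real.norm_eq_abs]
        set s := l * ⟪x, θ⟫
        have h2 := Real.add_one_le_exp (s ^ 2)
        have h3 : |s| ≤ s ^ 2 + 1 := by
          have h4 : s ^ 2 = |s| ^ 2 := (sq_abs s).symm
          rw [h4]
          nlinarith [sq_nonneg (|s| - 1)]
        linarith
      have hmean : ∫ x, l * ⟪x, θ⟫ ∂μ = 0 := by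
        rw [integral_const_mul, hc θ, mul_zero]
      have hpt : ∀ x : E n, eo ⟪w, x⟫ ≤ ENNReal.ofReal (l * ⟪x, θ⟫ + Real.exp ((l * ⟪x, θ⟫) ^ 2)) := by
        intro x
        rw [hwθ x]
        exact ENNReal.ofReal_le_ofReal (exp_le_add_exp_sq _)
      have hpos : ∀ x : E n, 0 ≤ l * ⟪x, θ⟫ + Real.exp ((l * ⟪x, θ⟫) ^ 2) := fun x =>
        (Real.exp_pos _).le.trans (exp_le_add_exp_sq _)
      calc ∫⁻ x, eo ⟪w, x⟫ ∂μ
          ≤ ∫⁻ x, ENNReal.ofReal (l * ⟪x, θ⟫ + Real.exp ((l * ⟪x, θ⟫) ^ 2)) ∂μ :=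
            lintegral_mono hpt
        _ = ENNReal.ofReal (∫ x, (l * ⟪x, θ⟫ + Real.exp ((l * ⟪x, θ⟫) ^ 2)) ∂μ) :=
            (ofReal_integral_eq_lintegral_ofReal (hint1.add hint2)
              (Filter.Eventually.of_forall hpos)).symm
        _ = ENNReal.ofReal (∫ x, Real.exp ((l * ⟪x, θ⟫) ^ 2) ∂μ) := by
            rw [integral_add hint1 hint2, hmean, zero_add]
        _ = ∫⁻ x, eo ((l * ⟪x, θ⟫) ^ 2) ∂μ :=
            ofReal_integral_eq_lintegral_ofReal hint2
              (Filter.Eventually.of_forall fun x => (Real.exp_pos _).le)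
        _ ≤ eo ((l * a) ^ 2) := hB
        _ = eo (a ^ 2 * ‖w‖ ^ 2) := by
            rw [← hl']
            congr 1
            ring
    · -- large w
      push Not at hcase
      have hpt : ∀ x : E n, eo ⟪w, x⟫ ≤
          eo ((l * a) ^ 2 / 2) * eo (⟪x, θ⟫ ^ 2 / a ^ 2) ^ (1 / 2 : ℝ) := by
        intro x
        rw [eo_rpow _ (by norm_num), ← eo_add, hwθ x]
        apply eo_le
        have h1 : 0 ≤ (l * a - ⟪x, θ⟫ / a) ^ 2 := sq_nonneg _
        have h2 : (l * a - ⟪x, θ⟫ / a) ^ 2 =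
            (l * a) ^ 2 - 2 * (l * ⟪x, θ⟫) + ⟪x, θ⟫ ^ 2 / a ^ 2 := by
          field_simp
          ring
        rw [h2] at h1
        linarith
      have hH := ENNReal.lintegral_mul_norm_pow_le (μ := μ)
        (f := fun x : E n => eo (⟪x, θ⟫ ^ 2 / a ^ 2))
        (g := fun _ => (1 : ℝ≥0∞)) (p := 1 / 2) (q := 1 / 2)
        (by fun_prop) aemeasurable_const (by norm_num) (by norm_num) (by norm_num)
      simp only [ENNReal.one_rpow, mul_one, lintegral_one, measure_univ] at hH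
      calc ∫⁻ x, eo ⟪w, x⟫ ∂μ
          ≤ ∫⁻ x, eo ((l * a) ^ 2 / 2) * eo (⟪x, θ⟫ ^ 2 / a ^ 2) ^ (1 / 2 : ℝ) ∂μ :=
            lintegral_mono hpt
        _ = eo ((l * a) ^ 2 / 2) * ∫⁻ x, eo (⟪x, θ⟫ ^ 2 / a ^ 2) ^ (1 / 2 : ℝ) ∂μ := by
            rw [lintegral_const_mul _ (by fun_prop)]
        _ ≤ eo ((l * a) ^ 2 / 2) * (∫⁻ x, eo (⟪x, θ⟫ ^ 2 / a ^ 2) ∂μ) ^ (1 / 2 : ℝ) := by
            gcongr
        _ ≤ eo ((l * a) ^ 2 / 2) * eo 1 ^ (1 / 2 : ℝ) := by
            gcongr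
        _ ≤ eo (a ^ 2 * ‖w‖ ^ 2) := by
            rw [eo_rpow _ (by norm_num), ← eo_add, ← hl']
            apply eo_le
            have : 1 ≤ (l * a) ^ 2 := by
              have h1 : 1 ≤ l * a := hcase.le
              nlinarith
            nlinarith
  · intro y
    have := hc y
    simpa [real_inner_comm] using this

end Vale.Agent.Lib.P245
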