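import Vale.Agent.Lib.P245.Ent

/-!
# The chain rule for entropy along the posterior channel.
-/

open MeasureTheory Real Set Filter Topology
open scoped ENNReal RealInnerProductSpace

namespace Vale.Agent.Lib.P245

variable {n : ℕ} {μ : Measure (E n)} {A T : ℝ}

/-- The real weight. -/
noncomputable def wtR (T : ℝ) (y x : E n) : ℝ := Real.exp (⟪y, x⟫ - T / 2 * ‖x‖ ^ 2)

lemma wtR_pos (T : ℝ) (y x : E n) : 0 < wtR T y x := Real.exp_pos _

lemma wt_eq (T : ℝ) (y x : E n) : wt T y x = ENNReal.ofReal (wtR T y x) := rfl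

lemma measurable_wtR_g (T : ℝ) : Measurable fun q : E n × E n => wtR T (Real.sqrt T • q.1) q.2 := by
  unfold wtR
  fun_prop

lemma measurable_wtR (T : ℝ) (y : E n) : Measurable (wtR T y) := by
  unfold wtR
  fun_prop

lemma integrable_wtR (h : SG μ A) (hT : 0 ≤ T) (y : E n) : Integrable (wtR T y) μ := by
  refine ⟨(measurable_wtR T y).aestronglyMeasurable, ?_⟩
  rw [hasFiniteIntegral_iff_ofReal (Eventually.of_forall fun x => (wtR_pos T y x).le)]
  exact lt_top_iff_ne_top.2 (Zf_ne_top h hT y)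

lemma integral_wtR (y : E n) : ∫ x, wtR T y x ∂μ = (Zf μ T y).toReal := by
  rw [integral_eq_lintegral_of_nonneg_ae (Eventually.of_forall fun x => (wtR_pos T y x).le)
    (measurable_wtR T y).aestronglyMeasurable]
  rfl

lemma integrable_wtR_gam (hT : 0 ≤ T) (x : E n) :
    Integrable (fun ξ => wtR T (Real.sqrt T • ξ) x) (gam n) := by
  refine ⟨(by unfold wtR; fun_prop : Measurable fun ξ : E n =>
    wtR T (Real.sqrt T • ξ) x).aestronglyMeasurable, ?_⟩
  rw [hasFiniteIntegral_iff_ofReal (Eventually.of_forall fun ξ => (wtR_pos T _ x).le)]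
  have := lintegral_wt_gam (n := n) hT x
  simp only [wt_eq] at this
  rw [this]
  exact ENNReal.one_lt_top

lemma integral_wtR_gam (hT : 0 ≤ T) (x : E n) :
    ∫ ξ, wtR T (Real.sqrt T • ξ) x ∂(gam n) = 1 := by
  rw [integral_eq_lintegral_of_nonneg_ae (Eventually.of_forall fun ξ => (wtR_pos T _ x).le)
    (by unfold wtR; fun_prop : Measurable fun ξ : E n =>
      wtR T (Real.sqrt T • ξ) x).aestronglyMeasurable]
  have := lintegral_wt_gam (n := n) hT x
  simp only [wt_eq] at this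
  rw [this]
  simp

lemma integrable_wtR_prod [IsProbabilityMeasure μ] (hT : 0 ≤ T) :
    Integrable (fun q : E n × E n => wtR T (Real.sqrt T • q.1) q.2) ((gam n).prod μ) := by
  refine ⟨(measurable_wtR_g T).aestronglyMeasurable, ?_⟩
  rw [hasFiniteIntegral_iff_ofReal (Eventually.of_forall fun q => (wtR_pos T _ _).le)]
  rw [lintegral_prod _ (measurable_wtR_g T).ennreal_ofReal.aemeasurable]
  have := lintegral_Zf_gam (μ := μ) (n := n) hT
  unfold Zf at this
  simp only [wt_eq] at this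
  rw [this]
  exact ENNReal.one_lt_top

lemma integrable_bdd_prod [IsProbabilityMeasure μ] (hT : 0 ≤ T) {Φ : E n × E n → ℝ}
    (hΦ : Measurable Φ) {C : ℝ} (hC : ∀ q, |Φ q| ≤ C) :
    Integrable (fun q : E n × E n => Φ q * wtR T (Real.sqrt T • q.1) q.2) ((gam n).prod μ) := by
  refine ((integrable_wtR_prod hT).const_mul C).mono'
    (hΦ.mul (measurable_wtR_g T)).aestronglyMeasurable (Eventually.of_forall fun q => ?_)
  rw [Real.norm_eq_abs, abs_mul, abs_of_pos (wtR_pos T _ _)]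
  exact mul_le_mul_of_nonneg_right (hC q) (wtR_pos T _ _).le

/-- Fubini for bounded integrands against the joint law. -/
lemma fubini_bdd [IsProbabilityMeasure μ] (hT : 0 ≤ T) {Φ : E n × E n → ℝ}
    (hΦ : Measurable Φ) {C : ℝ} (hC : ∀ q, |Φ q| ≤ C) :
    ∫ ξ, ∫ x, Φ (ξ, x) * wtR T (Real.sqrt T • ξ) x ∂μ ∂(gam n) =
      ∫ x, ∫ ξ, Φ (ξ, x) * wtR T (Real.sqrt T • ξ) x ∂(gam n) ∂μ := by
  apply integral_integral_swap (f := fun ξ x => Φ (ξ, x) * wtR T (Real.sqrt T • ξ) x)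
  exact integrable_bdd_prod hT hΦ hC

/-- Integrating out the Gaussian variable. -/
lemma fubini_x [IsProbabilityMeasure μ] (hT : 0 ≤ T) {φ : E n → ℝ} (hφ : Measurable φ) {C : ℝ}
    (hC : ∀ x, |φ x| ≤ C) :
    ∫ ξ, ∫ x, φ x * wtR T (Real.sqrt T • ξ) x ∂μ ∂(gam n) = ∫ x, φ x ∂μ := by
  rw [fubini_bdd hT (Φ := fun q => φ q.2) (hφ.comp measurable_snd) (fun q => hC q.2)]
  refine integral_congr_ae (Eventually.of_forall fun x => ?_)
  simp only
  rw [integral_const_mul, integral_wtR_gam hT, mul_one]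

/-- Gibbs' inequality in bounded form. -/
lemma gibbs [IsProbabilityMeasure μ] {g W : E n → ℝ} (hgm : Measurable g) (hWm : Measurable W)
    {m₀ m₁ w₀ w₁ : ℝ} (hm₀ : 0 < m₀) (hw₀ : 0 < w₀) (hg₀ : ∀ x, m₀ ≤ g x) (hg₁ : ∀ x, g x ≤ m₁)
    (hW₀ : ∀ x, w₀ ≤ W x) (hW₁ : ∀ x, W x ≤ w₁) :
    ∫ x, g x * Real.log (W x) ∂μ ≤
      ∫ x, g x * Real.log (g x) ∂μ - (∫ x, g x ∂μ) * Real.log (∫ x, g x ∂μ) +
        (∫ x, g x ∂μ) * Real.log (∫ x, W x ∂μ) := by
  have hgpos : ∀ x, 0 < g x := fun x => lt_of_lt_of_le hm₀ (hg₀ x)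
  have hWpos : ∀ x, 0 < W x := fun x => lt_of_lt_of_le hw₀ (hW₀ x)
  have hbd : ∀ φ : E n → ℝ, Measurable φ → (∃ C, ∀ x, |φ x| ≤ C) → Integrable φ μ := by
    rintro φ hφ ⟨C, hC⟩
    exact Integrable.of_bound hφ.aestronglyMeasurable C (Eventually.of_forall fun x => by
      rw [Real.norm_eq_abs]
      exact hC x)
  have hgabs : ∀ x, |g x| ≤ m₁ := fun x => by
    rw [abs_of_pos (hgpos x)]
    exact hg₁ x
  have hWabs : ∀ x, |W x| ≤ w₁ := fun x => by
    rw [abs_of_pos (hWpos x)]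
    exact hW₁ x
  have hlogb : ∀ {s : E n → ℝ} {a b : ℝ}, 0 < a → (∀ x, a ≤ s x) → (∀ x, s x ≤ b) →
      ∀ x, |Real.log (s x)| ≤ |Real.log a| + |Real.log b| := by
    intro s a b ha h1 h2 x
    have hsx : 0 < s x := lt_of_lt_of_le ha (h1 x)
    have h3 := Real.log_le_log ha (h1 x)
    have h4 := Real.log_le_log hsx (h2 x)
    rw [abs_le]
    constructor
    · have := neg_abs_le (Real.log a)
      have := abs_nonneg (Real.log b)
      linarith
    · have := le_abs_self (Real.log b)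
      have := abs_nonneg (Real.log a)
      linarith
  have hm1 : 0 < m₁ := lt_of_lt_of_le (hgpos 0) (hg₁ 0)
  have hw1 : 0 < w₁ := lt_of_lt_of_le (hWpos 0) (hW₁ 0)
  have hig : Integrable g μ := hbd _ hgm ⟨m₁, hgabs⟩
  have hiW : Integrable W μ := hbd _ hWm ⟨w₁, hWabs⟩
  have higlogg : Integrable (fun x => g x * Real.log (g x)) μ :=
    hbd _ (hgm.mul hgm.log) ⟨m₁ * (|Real.log m₀| + |Real.log m₁|), fun x => by
      rw [abs_mul]
      exact mul_le_mul (hgabs x) (hlogb hm₀ hg₀ hg₁ x) (abs_nonneg _) hm1.le⟩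
  have higlogW : Integrable (fun x => g x * Real.log (W x)) μ :=
    hbd _ (hgm.mul hWm.log) ⟨m₁ * (|Real.log w₀| + |Real.log w₁|), fun x => by
      rw [abs_mul]
      exact mul_le_mul (hgabs x) (hlogb hw₀ hW₀ hW₁ x) (abs_nonneg _) hm1.le⟩
  set c := ∫ x, g x ∂μ with hc
  set w := ∫ x, W x ∂μ with hw
  have hc0 : 0 < c := by
    have h1 : ∫ _x : E n, m₀ ∂μ ≤ c := integral_mono (integrable_const _) hig hg₀
    simp at h1
    linarith
  have hw0 : 0 < w := by
    have h1 : ∫ _x : E n, w₀ ∂μ ≤ w := integral_mono (integrable_const _) hiW hW₀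
    simp at h1
    linarith
  set a := w / c with ha
  have ha0 : 0 < a := by positivity
  have hpt : ∀ x, g x * Real.log (W x) ≤
      g x * Real.log (g x) + (W x / a - g x + g x * Real.log a) := by
    intro x
    have hgx := hgpos x
    have hWx := hWpos x
    have h1 := Real.log_le_sub_one_of_pos (div_pos (div_pos hWx hgx) ha0)
    rw [Real.log_div (div_pos hWx hgx).ne' ha0.ne', Real.log_div hWx.ne' hgx.ne'] at h1
    have h2 := mul_le_mul_of_nonneg_left h1 hgx.le
    have e1 : g x * (W x / g x / a - 1) = W x / a - g x := by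
      field_simp
    rw [e1] at h2
    nlinarith
  have hi1 : Integrable (fun x => W x / a) μ := hiW.div_const a
  have hi2 : Integrable (fun x => W x / a - g x) μ := hi1.sub hig
  have hi3 : Integrable (fun x => g x * Real.log a) μ := hig.mul_const _
  have hi4 : Integrable (fun x => W x / a - g x + g x * Real.log a) μ := hi2.add hi3
  have hiR : Integrable (fun x => g x * Real.log (g x) + (W x / a - g x + g x * Real.log a)) μ :=
    higlogg.add hi4
  have hmain := integral_mono higlogW hiR hpt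
  have e2 : ∫ x, (g x * Real.log (g x) + (W x / a - g x + g x * Real.log a)) ∂μ =
      (∫ x, g x * Real.log (g x) ∂μ) + (w / a - c + c * Real.log a) := by
    rw [integral_add higlogg hi4, integral_add hi2 hi3, integral_sub hi1 hig, integral_div,
      integral_mul_const]
  rw [e2] at hmain
  have e3 : w / a = c := by
    rw [ha]
    field_simp
  have e4 : Real.log a = Real.log w - Real.log c := Real.log_div hw0.ne' hc0.ne'
  rw [e3, e4] at hmain
  nlinarith

/-- The entropy of the posterior mean. -/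
theorem entropy_bound [IsProbabilityMeasure μ] (hn : 1 ≤ n) (h : SG μ A) (hT0 : 0 < T)
    (hT : T ≤ 1 / (16 * A)) {g : E n → ℝ} (hgm : Measurable g) {m₀ m₁ : ℝ} (hm₀ : 0 < m₀)
    (hg₀ : ∀ x, m₀ ≤ g x) (hg₁ : ∀ x, g x ≤ m₁) :
    ∫ ξ, (∫ x, g x * wtR T (Real.sqrt T • ξ) x ∂μ) *
        Real.log ((∫ x, g x * wtR T (Real.sqrt T • ξ) x ∂μ) / ∫ x, wtR T (Real.sqrt T • ξ) x ∂μ)
        ∂(gam n) ≤
      2 / 3 * ∫ x, g x * Real.log (g x) ∂μ + 1 / 3 * ((∫ x, g x ∂μ) * Real.log (∫ x, g x ∂μ)) +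
        (∫ x, g x ∂μ) * (3 + 800 * A ^ 2 * T ^ 2 * n) := by
  set M := 3 + 800 * A ^ 2 * T ^ 2 * n with hM
  have hgpos : ∀ x, 0 < g x := fun x => lt_of_lt_of_le hm₀ (hg₀ x)
  have hm1 : 0 < m₁ := lt_of_lt_of_le (hgpos 0) (hg₁ 0)
  have hgabs : ∀ x, |g x| ≤ m₁ := fun x => by
    rw [abs_of_pos (hgpos x)]
    exact hg₁ x
  have hbd : ∀ φ : E n → ℝ, Measurable φ → (∃ C, ∀ x, |φ x| ≤ C) → Integrable φ μ := by
    rintro φ hφ ⟨C, hC⟩
    exact Integrable.of_bound hφ.aestronglyMeasurable C (Eventually.of_forall fun x => by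
      rw [Real.norm_eq_abs]
      exact hC x)
  have hig : Integrable g μ := hbd _ hgm ⟨m₁, hgabs⟩
  set c := ∫ x, g x ∂μ with hc
  have hc0 : 0 < c := by
    have h1 : ∫ _x : E n, m₀ ∂μ ≤ c := integral_mono (integrable_const _) hig hg₀
    simp at h1
    linarith
  -- the posterior mean
  set Gg : E n → ℝ := fun ξ => ∫ x, g x * wtR T (Real.sqrt T • ξ) x ∂μ with hGg
  set Zr : E n → ℝ := fun ξ => ∫ x, wtR T (Real.sqrt T • ξ) x ∂μ with hZr
  have hZr2 : ∀ ξ, Zr ξ = (Zf μ T (Real.sqrt T • ξ)).toReal := fun ξ => integral_wtR _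
  have hZr0 : ∀ ξ, 0 < Zr ξ := fun ξ => by
    rw [hZr2]
    exact ENNReal.toReal_pos (Zf_ne_zero h hT0.le _) (Zf_ne_top h hT0.le _)
  have hZrm : Measurable Zr := by
    have : Measurable fun ξ : E n => (Zf μ T (Real.sqrt T • ξ)).toReal :=
      ((measurable_Zf T).comp (by fun_prop)).ennreal_toReal
    have e : Zr = fun ξ : E n => (Zf μ T (Real.sqrt T • ξ)).toReal := funext hZr2
    rwa [e]
  have hGgm : Measurable Gg := by
    have h1 : StronglyMeasurable fun q : E n × E n => g q.2 * wtR T (Real.sqrt T • q.1) q.2 :=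
      ((hgm.comp measurable_snd).mul (measurable_wtR_g T)).stronglyMeasurable
    exact (h1.integral_prod_right' (ν := μ)).measurable
  have hiw : ∀ ξ : E n, Integrable (wtR T (Real.sqrt T • ξ)) μ := fun ξ =>
    integrable_wtR h hT0.le _
  have higw : ∀ ξ : E n, Integrable (fun x => g x * wtR T (Real.sqrt T • ξ) x) μ := fun ξ =>
    (hiw ξ).bdd_mul hgm.aestronglyMeasurable (Eventually.of_forall fun x => by
      rw [Real.norm_eq_abs]
      exact hgabs x)
  have hGglow : ∀ ξ, m₀ * Zr ξ ≤ Gg ξ := fun ξ => by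
    simp only [hZr, hGg]
    rw [← integral_const_mul]
    exact integral_mono ((hiw ξ).const_mul _) (higw ξ) fun x =>
      mul_le_mul_of_nonneg_right (hg₀ x) (wtR_pos T _ _).le
  have hGgup : ∀ ξ, Gg ξ ≤ m₁ * Zr ξ := fun ξ => by
    simp only [hZr, hGg]
    rw [← integral_const_mul]
    exact integral_mono (higw ξ) ((hiw ξ).const_mul _) fun x =>
      mul_le_mul_of_nonneg_right (hg₁ x) (wtR_pos T _ _).le
  set hh : E n → ℝ := fun ξ => Gg ξ / Zr ξ with hhh
  have hhm : Measurable hh := hGgm.div hZrm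
  have hh₀ : ∀ ξ, m₀ ≤ hh ξ := fun ξ => by
    rw [hhh]
    simp only
    rw [le_div_iff₀ (hZr0 ξ)]
    exact hGglow ξ
  have hh₁ : ∀ ξ, hh ξ ≤ m₁ := fun ξ => by
    rw [hhh]
    simp only
    rw [div_le_iff₀ (hZr0 ξ)]
    exact hGgup ξ
  have hhpos : ∀ ξ, 0 < hh ξ := fun ξ => lt_of_lt_of_le hm₀ (hh₀ ξ)
  have hGhh : ∀ ξ, Gg ξ = hh ξ * Zr ξ := fun ξ => by
    rw [hhh]
    simp only
    field_simp [(hZr0 ξ).ne']
  -- logarithm and square root
  set ℓ : E n → ℝ := fun ξ => Real.log (hh ξ) with hℓ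
  have hℓm : Measurable ℓ := hhm.log
  set L := |Real.log m₀| + |Real.log m₁| with hL
  have hL0 : 0 ≤ L := by positivity
  have hℓb : ∀ ξ, |ℓ ξ| ≤ L := by
    intro ξ
    have h3 := Real.log_le_log hm₀ (hh₀ ξ)
    have h4 := Real.log_le_log (hhpos ξ) (hh₁ ξ)
    rw [abs_le]
    constructor
    · have := neg_abs_le (Real.log m₀)
      have := abs_nonneg (Real.log m₁)
      simp only [hℓ, hL]
      linarith
    · have := le_abs_self (Real.log m₁)
      have := abs_nonneg (Real.log m₀)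
      simp only [hℓ, hL]
      linarith
  set r : E n → ℝ := fun ξ => Real.sqrt (hh ξ) with hr
  have hrm : Measurable r := hhm.sqrt
  have hr₀ : ∀ ξ, Real.sqrt m₀ ≤ r ξ := fun ξ => Real.sqrt_le_sqrt (hh₀ ξ)
  have hr₁ : ∀ ξ, r ξ ≤ Real.sqrt m₁ := fun ξ => Real.sqrt_le_sqrt (hh₁ ξ)
  have hs0 : 0 < Real.sqrt m₀ := Real.sqrt_pos.2 hm₀
  have hs1 : 0 < Real.sqrt m₁ := Real.sqrt_pos.2 hm1
  have hrpos : ∀ ξ, 0 < r ξ := fun ξ => lt_of_lt_of_le hs0 (hr₀ ξ)
  have hrabs : ∀ ξ, |r ξ| ≤ Real.sqrt m₁ := fun ξ => by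
    rw [abs_of_pos (hrpos ξ)]
    exact hr₁ ξ
  have hlogr : ∀ ξ, ℓ ξ = 2 * Real.log (r ξ) := fun ξ => by
    rw [hr, hℓ]
    simp only
    rw [Real.log_sqrt (hhpos ξ).le]
    ring
  -- the dual function
  have hiwg : ∀ x : E n, Integrable (fun ξ => wtR T (Real.sqrt T • ξ) x) (gam n) :=
    fun x => integrable_wtR_gam hT0.le x
  have hirw : ∀ x : E n, Integrable (fun ξ => r ξ * wtR T (Real.sqrt T • ξ) x) (gam n) := fun x =>
    (hiwg x).bdd_mul hrm.aestronglyMeasurable (Eventually.of_forall fun ξ => by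
      rw [Real.norm_eq_abs]
      exact hrabs ξ)
  set R : E n → ℝ := fun x => ∫ ξ, r ξ * wtR T (Real.sqrt T • ξ) x ∂(gam n) with hR
  have hRm : Measurable R := by
    have h1 : StronglyMeasurable fun q : E n × E n => r q.2 * wtR T (Real.sqrt T • q.2) q.1 := by
      apply Measurable.stronglyMeasurable
      apply (hrm.comp measurable_snd).mul
      unfold wtR
      fun_prop
    exact (h1.integral_prod_right' (ν := gam n)).measurable
  have hR₀ : ∀ x, Real.sqrt m₀ ≤ R x := fun x => by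
    have h1 : ∫ ξ, Real.sqrt m₀ * wtR T (Real.sqrt T • ξ) x ∂(gam n) ≤ R x :=
      integral_mono ((hiwg x).const_mul _) (hirw x) fun ξ =>
        mul_le_mul_of_nonneg_right (hr₀ ξ) (wtR_pos T _ _).le
    rwa [integral_const_mul, integral_wtR_gam hT0.le, mul_one] at h1
  have hR₁ : ∀ x, R x ≤ Real.sqrt m₁ := fun x => by
    have h1 : R x ≤ ∫ ξ, Real.sqrt m₁ * wtR T (Real.sqrt T • ξ) x ∂(gam n) :=
      integral_mono (hirw x) ((hiwg x).const_mul _) fun ξ =>
        mul_le_mul_of_nonneg_right (hr₁ ξ) (wtR_pos T _ _).le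
    rwa [integral_const_mul, integral_wtR_gam hT0.le, mul_one] at h1
  have hRpos : ∀ x, 0 < R x := fun x => lt_of_lt_of_le hs0 (hR₀ x)
  -- Jensen in the Gaussian variable
  have hilw : ∀ x : E n, Integrable (fun ξ => ℓ ξ * wtR T (Real.sqrt T • ξ) x) (gam n) := fun x =>
    (hiwg x).bdd_mul hℓm.aestronglyMeasurable (Eventually.of_forall fun ξ => by
      rw [Real.norm_eq_abs]
      exact hℓb ξ)
  have hJensen : ∀ x, ∫ ξ, ℓ ξ * wtR T (Real.sqrt T • ξ) x ∂(gam n) ≤ 2 * Real.log (R x) := by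
    intro x
    have hpt : ∀ ξ, ℓ ξ * wtR T (Real.sqrt T • ξ) x ≤
        (2 / R x) * (r ξ * wtR T (Real.sqrt T • ξ) x) +
          (2 * Real.log (R x) - 2) * wtR T (Real.sqrt T • ξ) x := by
      intro ξ
      have hRx := hRpos x
      have h1 := Real.log_le_sub_one_of_pos (div_pos (hrpos ξ) hRx)
      rw [Real.log_div (hrpos ξ).ne' hRx.ne'] at h1
      have h2 : ℓ ξ ≤ 2 / R x * r ξ + (2 * Real.log (R x) - 2) := by
        rw [hlogr]
        have e : 2 / R x * r ξ = 2 * (r ξ / R x) := by ring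
        rw [e]
        linarith
      have h3 := mul_le_mul_of_nonneg_right h2 (wtR_pos T (Real.sqrt T • ξ) x).le
      calc ℓ ξ * wtR T (Real.sqrt T • ξ) x
          ≤ (2 / R x * r ξ + (2 * Real.log (R x) - 2)) * wtR T (Real.sqrt T • ξ) x := h3
        _ = _ := by ring
    have hiB1 : Integrable (fun ξ => (2 / R x) * (r ξ * wtR T (Real.sqrt T • ξ) x)) (gam n) :=
      (hirw x).const_mul _
    have hiB2 : Integrable (fun ξ => (2 * Real.log (R x) - 2) * wtR T (Real.sqrt T • ξ) x) (gam n) :=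
      (hiwg x).const_mul _
    have hiB : Integrable (fun ξ => (2 / R x) * (r ξ * wtR T (Real.sqrt T • ξ) x) +
        (2 * Real.log (R x) - 2) * wtR T (Real.sqrt T • ξ) x) (gam n) := hiB1.add hiB2
    have h4 := integral_mono (hilw x) hiB hpt
    have e5 : ∫ ξ, ((2 / R x) * (r ξ * wtR T (Real.sqrt T • ξ) x) +
        (2 * Real.log (R x) - 2) * wtR T (Real.sqrt T • ξ) x) ∂(gam n) = 2 * Real.log (R x) := by
      rw [integral_add hiB1 hiB2, integral_const_mul, integral_const_mul, integral_wtR_gam hT0.le]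
      have e6 : ∫ ξ, r ξ * wtR T (Real.sqrt T • ξ) x ∂(gam n) = R x := rfl
      rw [e6]
      have := (hRpos x).ne'
      field_simp
      ring
    rw [e5] at h4
    exact h4
  -- Fubini
  have hGℓ : ∀ ξ, Gg ξ * Real.log (Gg ξ / Zr ξ) =
      ∫ x, (ℓ ξ * g x) * wtR T (Real.sqrt T • ξ) x ∂μ := by
    intro ξ
    have e : ∀ x, (ℓ ξ * g x) * wtR T (Real.sqrt T • ξ) x =
        ℓ ξ * (g x * wtR T (Real.sqrt T • ξ) x) := fun x => by ring
    simp_rw [e]
    rw [integral_const_mul]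
    simp only [hGg, hℓ, hhh]
    ring
  have hΦb : ∀ q : E n × E n, |ℓ q.1 * g q.2| ≤ L * m₁ := fun q => by
    rw [abs_mul]
    exact mul_le_mul (hℓb _) (hgabs _) (abs_nonneg _) hL0
  have hΦm : Measurable fun q : E n × E n => ℓ q.1 * g q.2 :=
    (hℓm.comp measurable_fst).mul (hgm.comp measurable_snd)
  have e1 : ∫ ξ, Gg ξ * Real.log (Gg ξ / Zr ξ) ∂(gam n) =
      ∫ x, g x * ∫ ξ, ℓ ξ * wtR T (Real.sqrt T • ξ) x ∂(gam n) ∂μ := by
    simp_rw [hGℓ]
    rw [fubini_bdd hT0.le (Φ := fun q => ℓ q.1 * g q.2) hΦm hΦb]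
    refine integral_congr_ae (Eventually.of_forall fun x => ?_)
    simp only
    rw [← integral_const_mul]
    refine integral_congr_ae (Eventually.of_forall fun ξ => ?_)
    simp only
    ring
  -- apply Jensen
  have hlogRb : ∀ x, |Real.log (R x)| ≤ |Real.log (Real.sqrt m₀)| + |Real.log (Real.sqrt m₁)| := by
    intro x
    have h3 := Real.log_le_log hs0 (hR₀ x)
    have h4 := Real.log_le_log (hRpos x) (hR₁ x)
    rw [abs_le]
    constructor
    · have := neg_abs_le (Real.log (Real.sqrt m₀))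
      have := abs_nonneg (Real.log (Real.sqrt m₁))
      linarith
    · have := le_abs_self (Real.log (Real.sqrt m₁))
      have := abs_nonneg (Real.log (Real.sqrt m₀))
      linarith
  have hi1 : Integrable (fun x => g x * ∫ ξ, ℓ ξ * wtR T (Real.sqrt T • ξ) x ∂(gam n)) μ := by
    apply hbd
    · apply hgm.mul
      have h1 : StronglyMeasurable fun q : E n × E n => ℓ q.2 * wtR T (Real.sqrt T • q.2) q.1 := by
        apply Measurable.stronglyMeasurable
        apply (hℓm.comp measurable_snd).mul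
        unfold wtR
        fun_prop
      exact (h1.integral_prod_right' (ν := gam n)).measurable
    · refine ⟨m₁ * L, fun x => ?_⟩
      rw [abs_mul]
      apply mul_le_mul (hgabs x) _ (abs_nonneg _) hm1.le
      have h1 : |∫ ξ, ℓ ξ * wtR T (Real.sqrt T • ξ) x ∂(gam n)| ≤
          ∫ ξ, L * wtR T (Real.sqrt T • ξ) x ∂(gam n) := by
        refine (abs_integral_le_integral_abs).trans (integral_mono (hilw x).abs ((hiwg x).const_mul _)
          fun ξ => ?_)
        simp only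
        rw [abs_mul, abs_of_pos (wtR_pos T _ _)]
        exact mul_le_mul_of_nonneg_right (hℓb ξ) (wtR_pos T _ _).le
      rwa [integral_const_mul, integral_wtR_gam hT0.le, mul_one] at h1
  have hi2 : Integrable (fun x => g x * (2 * Real.log (R x))) μ := by
    have hmeas : Measurable fun x => g x * (2 * Real.log (R x)) :=
      hgm.mul (measurable_const.mul hRm.log)
    apply hbd _ hmeas
    refine ⟨m₁ * (2 * (|Real.log (Real.sqrt m₀)| + |Real.log (Real.sqrt m₁)|)), fun x => ?_⟩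
    rw [abs_mul, abs_mul, abs_of_pos (by norm_num : (0 : ℝ) < 2)]
    apply mul_le_mul (hgabs x) _ (by positivity) hm1.le
    have := hlogRb x
    linarith
  have h2 : ∫ ξ, Gg ξ * Real.log (Gg ξ / Zr ξ) ∂(gam n) ≤ ∫ x, g x * (2 * Real.log (R x)) ∂μ := by
    rw [e1]
    exact integral_mono hi1 hi2 fun x => mul_le_mul_of_nonneg_left (hJensen x) (hgpos x).le
  -- Gibbs
  set W : E n → ℝ := fun x => R x ^ 3 with hW
  have hWm : Measurable W := hRm.pow_const 3
  have hWlow : ∀ x, Real.sqrt m₀ ^ 3 ≤ W x := fun x => pow_le_pow_left₀ hs0.le (hR₀ x) 3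
  have hWup : ∀ x, W x ≤ Real.sqrt m₁ ^ 3 := fun x => pow_le_pow_left₀ (hRpos x).le (hR₁ x) 3
  have hWpos' : ∀ x, 0 < W x := fun x => pow_pos (hRpos x) 3
  have hiW : Integrable W μ := hbd _ hWm ⟨Real.sqrt m₁ ^ 3, fun x => by
    rw [abs_of_pos (hWpos' x)]
    exact hWup x⟩
  have hG := gibbs (μ := μ) (g := g) (W := W) hgm hWm hm₀ (by positivity : 0 < Real.sqrt m₀ ^ 3)
    hg₀ hg₁ hWlow hWup
  have e2 : ∫ x, g x * (2 * Real.log (R x)) ∂μ = 2 / 3 * ∫ x, g x * Real.log (W x) ∂μ := by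
    rw [← integral_const_mul]
    refine integral_congr_ae (Eventually.of_forall fun x => ?_)
    simp only [hW]
    rw [Real.log_pow]
    push_cast
    ring
  -- the dual bound
  have hWint : ∫ x, W x ∂μ ≤ c ^ (3 / 2 : ℝ) * Real.exp (3 / 2 * M) := by
    have hdual := dual_bound (r := fun ξ => ENNReal.ofReal (r ξ)) (b := ENNReal.ofReal (Real.sqrt m₁))
      hn h hT0 hT (by fun_prop) ENNReal.ofReal_ne_top (fun ξ => ENNReal.ofReal_le_ofReal (hr₁ ξ))
    have e3 : ∀ x, ∫⁻ ξ, ENNReal.ofReal (r ξ) * wt T (Real.sqrt T • ξ) x ∂(gam n) =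
        ENNReal.ofReal (R x) := by
      intro x
      rw [hR]
      simp only
      rw [ofReal_integral_eq_lintegral_ofReal (hirw x) (Eventually.of_forall fun ξ =>
        mul_nonneg (hrpos ξ).le (wtR_pos T _ _).le)]
      refine lintegral_congr fun ξ => ?_
      rw [ENNReal.ofReal_mul (hrpos ξ).le, wt_eq]
    simp_rw [e3] at hdual
    have e4 : ∫⁻ x, ENNReal.ofReal (R x) ^ 3 ∂μ = ENNReal.ofReal (∫ x, W x ∂μ) := by
      rw [ofReal_integral_eq_lintegral_ofReal hiW (Eventually.of_forall fun x => (hWpos' x).le)]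
      refine lintegral_congr fun x => ?_
      rw [hW]
      simp only
      rw [ENNReal.ofReal_pow (hRpos x).le]
    have e5 : ∫⁻ ξ, ENNReal.ofReal (r ξ) ^ 2 * Zf μ T (Real.sqrt T • ξ) ∂(gam n) =
        ENNReal.ofReal c := by
      have hiG : Integrable Gg (gam n) := by
        have := (integrable_bdd_prod (μ := μ) hT0.le (Φ := fun q => g q.2) (hgm.comp measurable_snd)
          (C := m₁) (fun q => hgabs q.2)).integral_prod_left
        exact this
      have hGpos : ∀ ξ, 0 ≤ Gg ξ := fun ξ => by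
        rw [hGhh]
        have := hhpos ξ
        have := hZr0 ξ
        positivity
      have e6 : c = ∫ ξ, Gg ξ ∂(gam n) := by
        rw [hc]
        exact (fubini_x hT0.le hgm (C := m₁) hgabs).symm
      rw [e6, ofReal_integral_eq_lintegral_ofReal hiG (Eventually.of_forall hGpos)]
      refine lintegral_congr fun ξ => ?_
      rw [hGhh, ENNReal.ofReal_mul (hhpos ξ).le, ← ENNReal.ofReal_pow (hrpos ξ).le]
      have e7 : r ξ ^ 2 = hh ξ := Real.sq_sqrt (hhpos ξ).le
      rw [e7, hZr2, ENNReal.ofReal_toReal (Zf_ne_top h hT0.le _)]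
    rw [e4, e5, ENNReal.ofReal_rpow_of_nonneg hc0.le (by norm_num)] at hdual
    have e8 : ENNReal.ofReal (c ^ (3 / 2 : ℝ)) * eo (3 / 2 * M) =
        ENNReal.ofReal (c ^ (3 / 2 : ℝ) * Real.exp (3 / 2 * M)) := by
      unfold eo
      rw [ENNReal.ofReal_mul (by positivity)]
    rw [e8] at hdual
    exact (ENNReal.ofReal_le_ofReal_iff (by positivity)).1 hdual
  have hWpos : 0 < ∫ x, W x ∂μ := by
    have h1 : ∫ _x : E n, Real.sqrt m₀ ^ 3 ∂μ ≤ ∫ x, W x ∂μ :=
      integral_mono (integrable_const _) hiW hWlow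
    simp at h1
    have : 0 < Real.sqrt m₀ ^ 3 := by positivity
    linarith
  have hlogW : Real.log (∫ x, W x ∂μ) ≤ 3 / 2 * Real.log c + 3 / 2 * M := by
    have h3 := Real.log_le_log hWpos hWint
    rwa [Real.log_mul (by positivity) (by positivity), Real.log_rpow hc0, Real.log_exp] at h3
  -- assemble
  have h5 : c * Real.log (∫ x, W x ∂μ) ≤ c * (3 / 2 * Real.log c + 3 / 2 * M) :=
    mul_le_mul_of_nonneg_left hlogW hc0.le
  calc ∫ ξ, Gg ξ * Real.log (Gg ξ / Zr ξ) ∂(gam n)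
      ≤ 2 / 3 * ∫ x, g x * Real.log (W x) ∂μ := by rw [← e2]; exact h2
    _ ≤ 2 / 3 * (∫ x, g x * Real.log (g x) ∂μ - c * Real.log c + c * Real.log (∫ x, W x ∂μ)) := by
        gcongr
    _ ≤ 2 / 3 * ∫ x, g x * Real.log (g x) ∂μ + 1 / 3 * (c * Real.log c) + c * M := by
        nlinarith

end Vale.Agent.Lib.P245
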