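import Vale.Agent.Lib.P245.Chain

/-!
# The defective logarithmic Sobolev inequality.
-/

open MeasureTheory Real Set Filter Topology
open scoped ENNReal RealInnerProductSpace

namespace Vale.Agent.Lib.P245

variable {n : ℕ} {μ : Measure (E n)} {A T : ℝ}

lemma integral_withDensity_wt (y : E n) (φ : E n → ℝ) :
    ∫ x, φ x ∂(μ.withDensity (wt T y)) = ∫ x, φ x * wtR T y x ∂μ := by
  rw [integral_withDensity_eq_integral_toReal_smul (measurable_wt T y)
    (Eventually.of_forall fun x => ENNReal.ofReal_lt_top)]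
  refine integral_congr_ae (Eventually.of_forall fun x => ?_)
  simp only [smul_eq_mul]
  rw [wt_eq, ENNReal.toReal_ofReal (wtR_pos T y x).le, mul_comm]

/-- The logarithmic Sobolev inequality for the tilted measures, in terms of `μ`. -/
theorem lsi_tilt [IsProbabilityMeasure μ] (h : SG μ A) (hT0 : 0 < T) {ρ : E n → ℝ}
    (hρm : Measurable ρ) (h0 : ∀ x, 0 ≤ ρ x)
    (hlc : ∀ x z : E n, ∀ t : ℝ, 0 < t → t < 1 → ρ x ^ (1 - t) * ρ z ^ t ≤ ρ ((1 - t) • x + t • z))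
    (hμ : μ = volume.withDensity fun x => ENNReal.ofReal (ρ x))
    {u D : E n → ℝ} (hum : Measurable u) (hDm : Measurable D) {U B : ℝ} (hub : ∀ x, |u x| ≤ U)
    (hDb : ∀ x, |D x| ≤ B) {Λ : ℝ} (hΛ : 0 ≤ Λ)
    (H2 : ∀ x v : E n, u x - D x * ‖v‖ - Λ * ‖v‖ ^ 2 ≤ u (x + v)) (y : E n) :
    (∫ x, (u x * Real.exp (u x)) * wtR T y x ∂μ) -
        (∫ x, Real.exp (u x) * wtR T y x ∂μ) *
          (Real.log (∫ x, Real.exp (u x) * wtR T y x ∂μ) - Real.log (∫ x, wtR T y x ∂μ)) ≤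
      1 / (2 * T) * ∫ x, (D x ^ 2 * Real.exp (u x)) * wtR T y x ∂μ := by
  have hρE : Measurable fun x => ENNReal.ofReal (ρ x) := ENNReal.measurable_ofReal.comp hρm
  have hν : μ.withDensity (wt T y) = volume.withDensity (tilt ρ T y) := by
    rw [hμ, ← withDensity_mul _ hρE (measurable_wt T y)]
    rfl
  have hmass : (μ.withDensity (wt T y)) univ = Zf μ T y := by
    rw [withDensity_apply _ MeasurableSet.univ, setLIntegral_univ]
    rfl
  have : IsFiniteMeasure (μ.withDensity (wt T y)) := by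
    constructor
    rw [hmass]
    exact lt_top_iff_ne_top.2 (Zf_ne_top h hT0.le y)
  have hne : μ.withDensity (wt T y) ≠ 0 := by
    intro h1
    have h2 := hmass
    rw [h1] at h2
    simp only [Measure.coe_zero, Pi.zero_apply] at h2
    exact Zf_ne_zero h hT0.le y h2.symm
  have hϱm : Measurable (tilt ρ T y) := hρE.mul (measurable_wt T y)
  have hL := lsi_core hT0 hϱm (tilt_strongGen h0 hlc T y) hν hne hum hDm hub hDb hΛ H2
  have e1 : (μ.withDensity (wt T y)).real univ = ∫ x, wtR T y x ∂μ := by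
    rw [integral_wtR, measureReal_def, hmass]
  rw [e1, integral_withDensity_wt, integral_withDensity_wt, integral_withDensity_wt] at hL
  exact hL

lemma measurable_Gg (T : ℝ) [SFinite μ] {g : E n → ℝ} (hgm : Measurable g) :
    Measurable fun ξ : E n => ∫ x, g x * wtR T (Real.sqrt T • ξ) x ∂μ := by
  have h1 : StronglyMeasurable fun q : E n × E n => g q.2 * wtR T (Real.sqrt T • q.1) q.2 :=
    ((hgm.comp measurable_snd).mul (measurable_wtR_g T)).stronglyMeasurable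
  exact (h1.integral_prod_right' (ν := μ)).measurable

lemma measurable_Zr (T : ℝ) [SFinite μ] :
    Measurable fun ξ : E n => ∫ x, wtR T (Real.sqrt T • ξ) x ∂μ := by
  have h1 : StronglyMeasurable fun q : E n × E n => wtR T (Real.sqrt T • q.1) q.2 :=
    (measurable_wtR_g T).stronglyMeasurable
  exact (h1.integral_prod_right' (ν := μ)).measurable

/-- The defective logarithmic Sobolev inequality. -/
theorem defective_core [IsProbabilityMeasure μ] (hn : 1 ≤ n) (h : SG μ A) (hT0 : 0 < T)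
    (hT : T ≤ 1 / (16 * A)) {ρ : E n → ℝ}
    (hρm : Measurable ρ) (h0 : ∀ x, 0 ≤ ρ x)
    (hlc : ∀ x z : E n, ∀ t : ℝ, 0 < t → t < 1 → ρ x ^ (1 - t) * ρ z ^ t ≤ ρ ((1 - t) • x + t • z))
    (hμ : μ = volume.withDensity fun x => ENNReal.ofReal (ρ x))
    {u D : E n → ℝ} (hum : Measurable u) (hDm : Measurable D) {U B : ℝ} (hub : ∀ x, |u x| ≤ U)
    (hDb : ∀ x, |D x| ≤ B) {Λ : ℝ} (hΛ : 0 ≤ Λ)
    (H2 : ∀ x v : E n, u x - D x * ‖v‖ - Λ * ‖v‖ ^ 2 ≤ u (x + v)) :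
    (∫ x, u x * Real.exp (u x) ∂μ) -
        (∫ x, Real.exp (u x) ∂μ) * Real.log (∫ x, Real.exp (u x) ∂μ) ≤
      3 / (2 * T) * (∫ x, D x ^ 2 * Real.exp (u x) ∂μ) +
        3 * (∫ x, Real.exp (u x) ∂μ) * (3 + 800 * A ^ 2 * T ^ 2 * n) := by
  set g : E n → ℝ := fun x => Real.exp (u x) with hg
  have hgm : Measurable g := by
    rw [hg]
    fun_prop
  have hU0 : 0 ≤ U := (abs_nonneg _).trans (hub 0)
  have hB0 : 0 ≤ B := (abs_nonneg _).trans (hDb 0)
  have hg₀ : ∀ x, Real.exp (-U) ≤ g x := fun x =>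
    Real.exp_le_exp.2 (by have := (abs_le.1 (hub x)).1; linarith)
  have hg₁ : ∀ x, g x ≤ Real.exp U := fun x =>
    Real.exp_le_exp.2 ((le_abs_self _).trans (hub x))
  have hm₀ : 0 < Real.exp (-U) := Real.exp_pos _
  have hgpos : ∀ x, 0 < g x := fun x => Real.exp_pos _
  have hgabs : ∀ x, |g x| ≤ Real.exp U := fun x => by
    rw [abs_of_pos (hgpos x)]
    exact hg₁ x
  have hE := entropy_bound hn h hT0 hT hgm hm₀ hg₀ hg₁
  have e0 : ∀ x, g x * Real.log (g x) = u x * Real.exp (u x) := fun x => by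
    simp only [hg]
    rw [Real.log_exp]
    ring
  simp_rw [e0] at hE
  set M := 3 + 800 * A ^ 2 * T ^ 2 * n with hM
  set c := ∫ x, g x ∂μ with hc
  -- bounded integrands
  set φ₁ : E n → ℝ := fun x => u x * Real.exp (u x) with hφ₁
  set φ₂ : E n → ℝ := fun x => D x ^ 2 * Real.exp (u x) with hφ₂
  have hφ₁m : Measurable φ₁ := by
    rw [hφ₁]
    fun_prop
  have hφ₂m : Measurable φ₂ := by
    rw [hφ₂]
    fun_prop
  have hφ₁b : ∀ x, |φ₁ x| ≤ U * Real.exp U := fun x => by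
    simp only [hφ₁]
    rw [abs_mul, abs_of_pos (Real.exp_pos _)]
    exact mul_le_mul (hub x) (hg₁ x) (Real.exp_pos _).le hU0
  have hφ₂b : ∀ x, |φ₂ x| ≤ B ^ 2 * Real.exp U := fun x => by
    simp only [hφ₂]
    rw [abs_mul, abs_of_pos (Real.exp_pos _), abs_pow]
    exact mul_le_mul (pow_le_pow_left₀ (abs_nonneg _) (hDb x) 2) (hg₁ x) (Real.exp_pos _).le
      (by positivity)
  have hA₁ : Integrable (fun ξ : E n => ∫ x, φ₁ x * wtR T (Real.sqrt T • ξ) x ∂μ) (gam n) :=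
    (integrable_bdd_prod (μ := μ) hT0.le (Φ := fun q => φ₁ q.2) (hφ₁m.comp measurable_snd)
      (fun q => hφ₁b q.2)).integral_prod_left
  have hB₁ : Integrable (fun ξ : E n => ∫ x, φ₂ x * wtR T (Real.sqrt T • ξ) x ∂μ) (gam n) :=
    (integrable_bdd_prod (μ := μ) hT0.le (Φ := fun q => φ₂ q.2) (hφ₂m.comp measurable_snd)
      (fun q => hφ₂b q.2)).integral_prod_left
  have hG₁ : Integrable (fun ξ : E n => ∫ x, g x * wtR T (Real.sqrt T • ξ) x ∂μ) (gam n) :=
    (integrable_bdd_prod (μ := μ) hT0.le (Φ := fun q => g q.2) (hgm.comp measurable_snd)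
      (fun q => hgabs q.2)).integral_prod_left
  -- the logarithmic term is integrable
  set Gg : E n → ℝ := fun ξ => ∫ x, g x * wtR T (Real.sqrt T • ξ) x ∂μ with hGg
  set Zr : E n → ℝ := fun ξ => ∫ x, wtR T (Real.sqrt T • ξ) x ∂μ with hZr
  have hZr0 : ∀ ξ, 0 < Zr ξ := fun ξ => by
    have : Zr ξ = (Zf μ T (Real.sqrt T • ξ)).toReal := integral_wtR _
    rw [this]
    exact ENNReal.toReal_pos (Zf_ne_zero h hT0.le _) (Zf_ne_top h hT0.le _)
  have hiw : ∀ ξ : E n, Integrable (wtR T (Real.sqrt T • ξ)) μ := fun ξ =>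
    integrable_wtR h hT0.le _
  have higw : ∀ ξ : E n, Integrable (fun x => g x * wtR T (Real.sqrt T • ξ) x) μ := fun ξ =>
    (hiw ξ).bdd_mul hgm.aestronglyMeasurable (Eventually.of_forall fun x => by
      rw [Real.norm_eq_abs]
      exact hgabs x)
  have hGglow : ∀ ξ, Real.exp (-U) * Zr ξ ≤ Gg ξ := fun ξ => by
    simp only [hZr, hGg]
    rw [← integral_const_mul]
    exact integral_mono ((hiw ξ).const_mul _) (higw ξ) fun x =>
      mul_le_mul_of_nonneg_right (hg₀ x) (wtR_pos T _ _).le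
  have hGgup : ∀ ξ, Gg ξ ≤ Real.exp U * Zr ξ := fun ξ => by
    simp only [hZr, hGg]
    rw [← integral_const_mul]
    exact integral_mono (higw ξ) ((hiw ξ).const_mul _) fun x =>
      mul_le_mul_of_nonneg_right (hg₁ x) (wtR_pos T _ _).le
  have hGg0 : ∀ ξ, 0 < Gg ξ := fun ξ =>
    lt_of_lt_of_le (mul_pos hm₀ (hZr0 ξ)) (hGglow ξ)
  have hlogb : ∀ ξ, |Real.log (Gg ξ / Zr ξ)| ≤ U := fun ξ => by
    have h1 : Real.exp (-U) ≤ Gg ξ / Zr ξ := by
      rw [le_div_iff₀ (hZr0 ξ)]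
      exact hGglow ξ
    have h2 : Gg ξ / Zr ξ ≤ Real.exp U := by
      rw [div_le_iff₀ (hZr0 ξ)]
      exact hGgup ξ
    have hp : 0 < Gg ξ / Zr ξ := div_pos (hGg0 ξ) (hZr0 ξ)
    rw [abs_le]
    constructor
    · have := Real.log_le_log hm₀ h1
      rwa [Real.log_exp] at this
    · have := Real.log_le_log hp h2
      rwa [Real.log_exp] at this
  have hGgm : Measurable Gg := measurable_Gg T hgm
  have hZrm : Measurable Zr := measurable_Zr T
  have hiGlog : Integrable (fun ξ => Gg ξ * Real.log (Gg ξ / Zr ξ)) (gam n) := by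
    refine (hG₁.mul_const U).mono' (hGgm.mul (hGgm.div hZrm).log).aestronglyMeasurable
      (Eventually.of_forall fun ξ => ?_)
    rw [Real.norm_eq_abs, abs_mul, abs_of_pos (hGg0 ξ)]
    exact mul_le_mul_of_nonneg_left (hlogb ξ) (hGg0 ξ).le
  -- integrate the pointwise inequality
  have hpt : ∀ ξ : E n, (∫ x, φ₁ x * wtR T (Real.sqrt T • ξ) x ∂μ) - 1 / (2 * T) *
      ∫ x, φ₂ x * wtR T (Real.sqrt T • ξ) x ∂μ ≤ Gg ξ * Real.log (Gg ξ / Zr ξ) := by
    intro ξ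
    have hL := lsi_tilt h hT0 hρm h0 hlc hμ hum hDm hub hDb hΛ H2 (Real.sqrt T • ξ)
    rw [Real.log_div (hGg0 ξ).ne' (hZr0 ξ).ne']
    simp only [hGg, hZr, hφ₁, hφ₂, hg]
    linarith
  have hB₂ : Integrable (fun ξ : E n => 1 / (2 * T) *
      ∫ x, φ₂ x * wtR T (Real.sqrt T • ξ) x ∂μ) (gam n) := hB₁.const_mul _
  have hAB : Integrable (fun ξ : E n => (∫ x, φ₁ x * wtR T (Real.sqrt T • ξ) x ∂μ) - 1 / (2 * T) *
      ∫ x, φ₂ x * wtR T (Real.sqrt T • ξ) x ∂μ) (gam n) := hA₁.sub hB₂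
  have hmono := integral_mono hAB hiGlog hpt
  have hsub : ∫ ξ, ((∫ x, φ₁ x * wtR T (Real.sqrt T • ξ) x ∂μ) - 1 / (2 * T) *
      ∫ x, φ₂ x * wtR T (Real.sqrt T • ξ) x ∂μ) ∂(gam n) =
      (∫ x, φ₁ x ∂μ) - 1 / (2 * T) * ∫ x, φ₂ x ∂μ := by
    rw [integral_sub hA₁ hB₂, integral_const_mul, fubini_x hT0.le hφ₁m hφ₁b,
      fubini_x hT0.le hφ₂m hφ₂b]
  rw [hsub] at hmono
  have hfin := hmono.trans hE
  have e3 : 3 / (2 * T) = 3 * (1 / (2 * T)) := by ring
  rw [e3]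
  nlinarith

end Vale.Agent.Lib.P245
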