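import Vale.Agent.Lib.P245.LSI

/-!
# The entropy inequality for the posterior channel and the defective logarithmic Sobolev inequality.
-/

open MeasureTheory Real Set Filter Topology
open scoped ENNReal RealInnerProductSpace

namespace Vale.Agent.Lib.P245

variable {n : ℕ} {μ : Measure (E n)} {A T : ℝ}

/-- The dual form of the hypercontractive bound. -/
theorem dual_bound [IsProbabilityMeasure μ] (hn : 1 ≤ n) (h : SG μ A) (hT0 : 0 < T)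
    (hT : T ≤ 1 / (16 * A)) {r : E n → ℝ≥0∞} (hm : Measurable r) {b : ℝ≥0∞} (hbt : b ≠ ⊤)
    (hb : ∀ ξ, r ξ ≤ b) :
    ∫⁻ x, (∫⁻ ξ, r ξ * wt T (Real.sqrt T • ξ) x ∂(gam n)) ^ 3 ∂μ ≤
      (∫⁻ ξ, r ξ ^ 2 * Zf μ T (Real.sqrt T • ξ) ∂(gam n)) ^ (3 / 2 : ℝ) *
        eo (3 / 2 * (3 + 800 * A ^ 2 * T ^ 2 * n)) := by
  set M := 3 + 800 * A ^ 2 * T ^ 2 * n with hM
  set R : E n → ℝ≥0∞ := fun x => ∫⁻ ξ, r ξ * wt T (Real.sqrt T • ξ) x ∂(gam n) with hR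
  have hw : Measurable fun q : E n × E n => wt T (Real.sqrt T • q.2) q.1 := by
    unfold wt
    fun_prop
  have hrw : Measurable fun q : E n × E n => r q.2 * wt T (Real.sqrt T • q.2) q.1 :=
    (hm.comp measurable_snd).mul hw
  have hRm : Measurable R := hrw.lintegral_prod_right'
  have hRb : ∀ x, R x ≤ b := by
    intro x
    calc R x ≤ ∫⁻ ξ, b * wt T (Real.sqrt T • ξ) x ∂(gam n) :=
          lintegral_mono fun ξ => by gcongr; exact hb ξ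
      _ = b := by
          rw [lintegral_const_mul _ (by
            unfold wt
            fun_prop), lintegral_wt_gam hT0.le, mul_one]
  set X := ∫⁻ x, R x ^ 3 ∂μ with hX
  have hXt : X ≠ ⊤ := by
    have : X ≤ b ^ 3 := by
      calc X ≤ ∫⁻ _x, b ^ 3 ∂μ := lintegral_mono fun x => by gcongr; exact hRb x
        _ = b ^ 3 := by simp
    exact ne_top_of_le_ne_top (ENNReal.pow_ne_top hbt) this
  set P := ∫⁻ ξ, r ξ ^ 2 * Zf μ T (Real.sqrt T • ξ) ∂(gam n) with hP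
  by_cases hX0 : X = 0
  · rw [hX0]
    exact zero_le
  set B : E n → ℝ≥0∞ := fun ξ => ∫⁻ x, R x ^ 2 * wt T (Real.sqrt T • ξ) x ∂μ with hB
  have hBm : Measurable B := by
    apply Measurable.lintegral_prod_right'
      (f := fun q : E n × E n => R q.2 ^ 2 * wt T (Real.sqrt T • q.1) q.2)
    apply Measurable.mul ((hRm.comp measurable_snd).pow_const 2)
    unfold wt
    fun_prop
  have hZm : Measurable fun ξ : E n => Zf μ T (Real.sqrt T • ξ) :=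
    (measurable_Zf T).comp (by fun_prop)
  -- Tonelli
  have e1 : X = ∫⁻ ξ, r ξ * B ξ ∂(gam n) := by
    have h1 : ∀ x, R x ^ 3 = ∫⁻ ξ, R x ^ 2 * (r ξ * wt T (Real.sqrt T • ξ) x) ∂(gam n) := by
      intro x
      rw [lintegral_const_mul _ (by
        apply hm.mul
        unfold wt
        fun_prop)]
      simp only [hR]
      ring
    rw [hX]
    simp_rw [h1]
    rw [lintegral_lintegral_swap (by
      apply Measurable.aemeasurable
      apply Measurable.mul ((hRm.comp measurable_fst).pow_const 2)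
      exact hrw)]
    refine lintegral_congr fun ξ => ?_
    simp only [hB]
    rw [← lintegral_const_mul _ (by
      apply Measurable.mul (hRm.pow_const 2)
      unfold wt
      fun_prop)]
    refine lintegral_congr fun x => ?_
    ring
  -- Cauchy-Schwarz
  have hZ1 : ∀ ξ : E n, Zf μ T (Real.sqrt T • ξ) ^ (1 / 2 : ℝ) *
      ((Zf μ T (Real.sqrt T • ξ))⁻¹) ^ (1 / 2 : ℝ) = 1 := by
    intro ξ
    rw [← ENNReal.mul_rpow_of_nonneg _ _ (by norm_num),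
      ENNReal.mul_inv_cancel (Zf_ne_zero h hT0.le _) (Zf_ne_top h hT0.le _), ENNReal.one_rpow]
  have e2 : ∀ ξ, r ξ * B ξ = (r ξ * Zf μ T (Real.sqrt T • ξ) ^ (1 / 2 : ℝ)) *
      (B ξ * ((Zf μ T (Real.sqrt T • ξ))⁻¹) ^ (1 / 2 : ℝ)) := by
    intro ξ
    calc r ξ * B ξ = r ξ * B ξ * (Zf μ T (Real.sqrt T • ξ) ^ (1 / 2 : ℝ) *
          ((Zf μ T (Real.sqrt T • ξ))⁻¹) ^ (1 / 2 : ℝ)) := by rw [hZ1, mul_one]
      _ = _ := by ring
  have hCS := ENNReal.lintegral_mul_le_Lp_mul_Lq (gam n) (p := 2) (q := 2) (by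
        constructor <;> norm_num)
      (f := fun ξ => r ξ * Zf μ T (Real.sqrt T • ξ) ^ (1 / 2 : ℝ))
      (g := fun ξ => B ξ * ((Zf μ T (Real.sqrt T • ξ))⁻¹) ^ (1 / 2 : ℝ))
      (hm.mul (hZm.pow_const _)).aemeasurable (hBm.mul (hZm.inv.pow_const _)).aemeasurable
  simp only [Pi.mul_apply] at hCS
  have e3 : ∫⁻ ξ, (r ξ * Zf μ T (Real.sqrt T • ξ) ^ (1 / 2 : ℝ)) ^ (2 : ℝ) ∂(gam n) = P := by
    refine lintegral_congr fun ξ => ?_
    rw [ENNReal.mul_rpow_of_nonneg _ _ (by norm_num), ← ENNReal.rpow_mul]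
    norm_num
  have e4 : ∫⁻ ξ, (B ξ * ((Zf μ T (Real.sqrt T • ξ))⁻¹) ^ (1 / 2 : ℝ)) ^ (2 : ℝ) ∂(gam n) =
      ∫⁻ ξ, B ξ ^ 2 * (Zf μ T (Real.sqrt T • ξ))⁻¹ ∂(gam n) := by
    refine lintegral_congr fun ξ => ?_
    rw [ENNReal.mul_rpow_of_nonneg _ _ (by norm_num), ← ENNReal.rpow_mul]
    norm_num
  rw [e3, e4] at hCS
  -- hypercontractivity
  have hHC := hc (f := fun x => R x ^ 2) hn h hT0 hT (hRm.pow_const 2)
  have e5 : ∫⁻ x, (R x ^ 2) ^ (3 / 2 : ℝ) ∂μ = X := by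
    refine lintegral_congr fun x => ?_
    rw [← ENNReal.rpow_natCast, ← ENNReal.rpow_mul, ← ENNReal.rpow_natCast]
    norm_num
  rw [e5] at hHC
  have hXle : X ≤ P ^ (1 / 2 : ℝ) * (eo M * X ^ (4 / 3 : ℝ)) ^ (1 / 2 : ℝ) := by
    calc X = ∫⁻ ξ, (r ξ * Zf μ T (Real.sqrt T • ξ) ^ (1 / 2 : ℝ)) *
          (B ξ * ((Zf μ T (Real.sqrt T • ξ))⁻¹) ^ (1 / 2 : ℝ)) ∂(gam n) := by
          rw [e1]
          exact lintegral_congr e2
      _ ≤ _ := hCS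
      _ ≤ _ := by gcongr
  have hXle2 : X ≤ P ^ (1 / 2 : ℝ) * eo (M / 2) * X ^ (2 / 3 : ℝ) := by
    refine hXle.trans (le_of_eq ?_)
    rw [ENNReal.mul_rpow_of_nonneg _ _ (by norm_num), eo_rpow _ (by norm_num), ← ENNReal.rpow_mul,
      mul_assoc]
    congr 3
    · ring
    · norm_num
  -- cancel
  have hX23 : X ^ (2 / 3 : ℝ) ≠ 0 := (ENNReal.rpow_pos (pos_iff_ne_zero.2 hX0) hXt).ne'
  have hX23t : X ^ (2 / 3 : ℝ) ≠ ⊤ := ENNReal.rpow_ne_top_of_nonneg (by norm_num) hXt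
  have hX13 : X ^ (1 / 3 : ℝ) ≤ P ^ (1 / 2 : ℝ) * eo (M / 2) := by
    have e6 : X = X ^ (1 / 3 : ℝ) * X ^ (2 / 3 : ℝ) := by
      rw [← ENNReal.rpow_add _ _ hX0 hXt]
      norm_num
    rw [e6] at hXle2
    have e7 : (X ^ (1 / 3 : ℝ) * X ^ (2 / 3 : ℝ)) ^ (2 / 3 : ℝ) = X ^ (2 / 3 : ℝ) := by
      rw [← e6]
    rw [e7] at hXle2
    exact (ENNReal.mul_le_mul_iff_left hX23 hX23t).1 hXle2
  have e8 : X = (X ^ (1 / 3 : ℝ)) ^ (3 : ℝ) := by
    rw [← ENNReal.rpow_mul]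
    norm_num
  rw [e8]
  calc (X ^ (1 / 3 : ℝ)) ^ (3 : ℝ) ≤ (P ^ (1 / 2 : ℝ) * eo (M / 2)) ^ (3 : ℝ) := by gcongr
    _ = P ^ (3 / 2 : ℝ) * eo (3 / 2 * M) := by
      rw [ENNReal.mul_rpow_of_nonneg _ _ (by norm_num), ← ENNReal.rpow_mul, eo_rpow _ (by norm_num)]
      congr 2
      · norm_num
      · ring

end Vale.Agent.Lib.P245
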