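import Vale.Agent.Lib.P245.Null

/-!
# The posterior kernel and defective hypercontractivity.
-/

open MeasureTheory Real Set
open scoped ENNReal RealInnerProductSpace

namespace Vale.Agent.Lib.P245

variable {n : ℕ} {μ : Measure (E n)} {A T : ℝ}

/-- Cauchy-Schwarz in exponential form. -/
lemma lintegral_mul_le_of_sq_le {α : Type*} [MeasurableSpace α] (ν : Measure α) {f g : α → ℝ≥0∞}
    (hf : Measurable f) (hg : Measurable g) {a b : ℝ} (h1 : ∫⁻ x, f x ^ 2 ∂ν ≤ eo a)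
    (h2 : ∫⁻ x, g x ^ 2 ∂ν ≤ eo b) :
    ∫⁻ x, f x * g x ∂ν ≤ eo ((a + b) / 2) := by
  have hH := ENNReal.lintegral_mul_le_Lp_mul_Lq ν (p := 2) (q := 2) (by
        constructor <;> norm_num) (f := f) (g := g) hf.aemeasurable hg.aemeasurable
  simp only [Pi.mul_apply] at hH
  refine hH.trans ?_
  have e : ∀ u : α → ℝ≥0∞, ∫⁻ x, u x ^ (2 : ℝ) ∂ν = ∫⁻ x, u x ^ 2 ∂ν := by
    intro u
    simp
  rw [e f, e g]
  calc (∫⁻ x, f x ^ 2 ∂ν) ^ (1 / (2 : ℝ)) * (∫⁻ x, g x ^ 2 ∂ν) ^ (1 / (2 : ℝ))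
      ≤ eo a ^ (1 / (2 : ℝ)) * eo b ^ (1 / (2 : ℝ)) := by gcongr
    _ = eo ((a + b) / 2) := by
      rw [eo_rpow _ (by norm_num), eo_rpow _ (by norm_num), ← eo_add]
      congr 1
      ring

lemma AT_le (hA : 0 < A) (hT : T ≤ 1 / (16 * A)) : A * T ≤ 1 / 16 := by
  calc A * T ≤ A * (1 / (16 * A)) := mul_le_mul_of_nonneg_left hT hA.le
    _ = 1 / 16 := by field_simp

/-- The moment bound in the range used below. -/
lemma SG.moment2 [IsProbabilityMeasure μ] (h : SG μ A) (hT0 : 0 ≤ T) (hT : T ≤ 1 / (16 * A))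
    {c : ℝ} (hc0 : 0 ≤ c) (hc : c ≤ 32) :
    ∫⁻ x, eo (c * A * T ^ 2 * ‖x‖ ^ 2) ∂μ ≤ eo (4 * c * A ^ 2 * T ^ 2 * n) := by
  have hA := h.pos
  have hAT := AT_le hA hT
  have hAT0 : 0 ≤ A * T := by positivity
  have h1 := h.moment (k := c * A * T ^ 2) (by positivity) (by
    rw [le_div_iff₀ (by positivity)]
    have : (A * T) ^ 2 ≤ (1 / 16) ^ 2 := by gcongr
    nlinarith)
  refine h1.trans (eo_le (le_of_eq ?_))
  ring

/-- Second moment of the partition function at a shifted point. -/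
lemma second_moment [IsProbabilityMeasure μ] (h : SG μ A) (hT0 : 0 < T) (hT : T ≤ 1 / (16 * A))
    (u : E n) :
    ∫⁻ ξ, Zf μ T (Real.sqrt T • ξ - T • u) ^ 2 ∂(gam n) ≤
      eo (4 * A * T ^ 2 * ‖u‖ ^ 2 + 8 * A ^ 2 * T ^ 2 * n) := by
  have hA := h.pos
  have hAT := AT_le hA hT
  -- square as a double integral
  have e1 : ∀ ξ : E n, Zf μ T (Real.sqrt T • ξ - T • u) ^ 2 =
      ∫⁻ p : E n × E n, wt T (Real.sqrt T • ξ - T • u) p.1 * wt T (Real.sqrt T • ξ - T • u) p.2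
        ∂(μ.prod μ) := by
    intro ξ
    rw [lintegral_prod_mul (measurable_wt T _).aemeasurable (measurable_wt T _).aemeasurable]
    unfold Zf
    ring
  simp_rw [e1]
  rw [lintegral_lintegral_swap (by
    apply Measurable.aemeasurable
    unfold wt
    fun_prop)]
  -- Gaussian integral
  have e2 : ∀ p : E n × E n,
      ∫⁻ ξ, wt T (Real.sqrt T • ξ - T • u) p.1 * wt T (Real.sqrt T • ξ - T • u) p.2 ∂(gam n) =
      eo (T * ⟪p.1, p.2⟫ - T * ⟪u, p.1 + p.2⟫) := by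
    intro p
    set v : E n := Real.sqrt T • (p.1 + p.2) with hv
    have h1 : ∀ ξ : E n, wt T (Real.sqrt T • ξ - T • u) p.1 * wt T (Real.sqrt T • ξ - T • u) p.2 =
        eo ⟪ξ, v⟫ * eo (-(T / 2 * ‖p.1‖ ^ 2) - T / 2 * ‖p.2‖ ^ 2 - T * ⟪u, p.1 + p.2⟫) := by
      intro ξ
      unfold wt
      rw [← eo_add, ← eo_add]
      congr 1
      rw [hv, inner_smul_right, inner_add_right, inner_add_right, inner_sub_left, inner_sub_left,
        inner_smul_left, inner_smul_left, inner_smul_left, inner_smul_left]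
      simp
      ring
    simp_rw [h1]
    rw [lintegral_mul_const _ (by fun_prop), lintegral_gam_eo_inner, ← eo_add]
    congr 1
    rw [hv, norm_smul, mul_pow, Real.norm_eq_abs, sq_abs, Real.sq_sqrt hT0.le, @norm_add_sq_real]
    ring
  simp_rw [e2]
  -- Tonelli to iterate
  rw [lintegral_prod _ (by
    apply Measurable.aemeasurable
    fun_prop)]
  -- inner integral
  have e3 : ∀ x : E n, ∫⁻ y, eo (T * ⟪x, y⟫ - T * ⟪u, x + y⟫) ∂μ ≤
      eo (2 * A * T ^ 2 * ‖u‖ ^ 2) * (eo (-(T * ⟪u, x⟫)) * eo (2 * A * T ^ 2 * ‖x‖ ^ 2)) := by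
    intro x
    have h1 := h.mgf (T • (x - u))
    have e4 : ∀ y : E n, eo (T * ⟪x, y⟫ - T * ⟪u, x + y⟫) =
        eo (-(T * ⟪u, x⟫)) * eo ⟪T • (x - u), y⟫ := by
      intro y
      rw [← eo_add]
      congr 1
      rw [inner_add_right, inner_smul_left, inner_sub_left]
      simp
      ring
    simp_rw [e4]
    rw [lintegral_const_mul _ (by fun_prop)]
    calc eo (-(T * ⟪u, x⟫)) * ∫⁻ y, eo ⟪T • (x - u), y⟫ ∂μ
        ≤ eo (-(T * ⟪u, x⟫)) * eo (A * ‖T • (x - u)‖ ^ 2) := by gcongr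
      _ ≤ eo (-(T * ⟪u, x⟫)) * eo (2 * A * T ^ 2 * ‖u‖ ^ 2 + 2 * A * T ^ 2 * ‖x‖ ^ 2) := by
          gcongr
          apply eo_le
          rw [norm_smul, mul_pow, Real.norm_eq_abs, sq_abs]
          have h2 : ‖x - u‖ ^ 2 ≤ 2 * ‖x‖ ^ 2 + 2 * ‖u‖ ^ 2 := by
            have := @norm_sub_sq_real (E n) _ _ x u
            have h3 := @norm_add_sq_real (E n) _ _ x u
            nlinarith [sq_nonneg ‖x + u‖]
          have h3 : 0 ≤ A * T ^ 2 := by positivity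
          nlinarith
      _ = eo (2 * A * T ^ 2 * ‖u‖ ^ 2) * (eo (-(T * ⟪u, x⟫)) * eo (2 * A * T ^ 2 * ‖x‖ ^ 2)) := by
          rw [eo_add]
          ring
  calc ∫⁻ x, ∫⁻ y, eo (T * ⟪(x, y).1, (x, y).2⟫ - T * ⟪u, (x, y).1 + (x, y).2⟫) ∂μ ∂μ
      ≤ ∫⁻ x, eo (2 * A * T ^ 2 * ‖u‖ ^ 2) *
          (eo (-(T * ⟪u, x⟫)) * eo (2 * A * T ^ 2 * ‖x‖ ^ 2)) ∂μ := lintegral_mono e3
    _ = eo (2 * A * T ^ 2 * ‖u‖ ^ 2) *
          ∫⁻ x, eo (-(T * ⟪u, x⟫)) * eo (2 * A * T ^ 2 * ‖x‖ ^ 2) ∂μ := by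
        rw [lintegral_const_mul _ (by fun_prop)]
    _ ≤ eo (2 * A * T ^ 2 * ‖u‖ ^ 2) *
          eo ((4 * A * T ^ 2 * ‖u‖ ^ 2 + 16 * A ^ 2 * T ^ 2 * n) / 2) := by
        gcongr
        apply lintegral_mul_le_of_sq_le μ (by fun_prop) (by fun_prop)
        · calc ∫⁻ x, eo (-(T * ⟪u, x⟫)) ^ 2 ∂μ
              = ∫⁻ x, eo ⟪(-(2 * T)) • u, x⟫ ∂μ := by
                refine lintegral_congr fun x => ?_
                rw [eo_sq, inner_smul_left]
                congr 1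
                simp
                ring
            _ ≤ eo (A * ‖(-(2 * T)) • u‖ ^ 2) := h.mgf _
            _ = eo (4 * A * T ^ 2 * ‖u‖ ^ 2) := by
                congr 1
                rw [norm_smul, mul_pow, Real.norm_eq_abs, sq_abs]
                ring
        · calc ∫⁻ x, eo (2 * A * T ^ 2 * ‖x‖ ^ 2) ^ 2 ∂μ
              = ∫⁻ x, eo (4 * A * T ^ 2 * ‖x‖ ^ 2) ∂μ := by
                refine lintegral_congr fun x => ?_
                rw [eo_sq]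
                congr 1
                ring
            _ ≤ eo (4 * 4 * A ^ 2 * T ^ 2 * n) := h.moment2 hT0.le hT (by norm_num) (by norm_num)
            _ = eo (16 * A ^ 2 * T ^ 2 * n) := by
                congr 1
                ring
    _ = eo (4 * A * T ^ 2 * ‖u‖ ^ 2 + 8 * A ^ 2 * T ^ 2 * n) := by
        rw [← eo_add]
        congr 1
        ring

/-- Pointwise log-convexity of the partition function. -/
lemma Zf_inv_le [IsProbabilityMeasure μ] (h : SG μ A) (hT0 : 0 ≤ T) (y v : E n) :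
    (Zf μ T (y + v))⁻¹ ≤ Zf μ T (y - v) * ((Zf μ T y)⁻¹) ^ 2 := by
  have hconv := Zf_holder (μ := μ) T (y + v) (y - v) (τ := 1 / 2) (by norm_num) (by norm_num)
  have e : (1 - (1 / 2 : ℝ)) • (y + v) + (1 / 2 : ℝ) • (y - v) = y := by
    have h1 : (1 - (1 / 2 : ℝ)) = 1 / 2 := by norm_num
    have h2 : y + v + (y - v) = (2 : ℝ) • y := by
      rw [two_smul]
      abel
    rw [h1, ← smul_add, h2, smul_smul]
    norm_num
  rw [e] at hconv
  set a := Zf μ T y with ha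
  set b := Zf μ T (y + v) with hb
  set c := Zf μ T (y - v) with hc
  have ha0 : a ≠ 0 := Zf_ne_zero h hT0 y
  have hat : a ≠ ⊤ := Zf_ne_top h hT0 y
  have hb0 : b ≠ 0 := Zf_ne_zero h hT0 _
  have hbt : b ≠ ⊤ := Zf_ne_top h hT0 _
  have hc0 : c ≠ 0 := Zf_ne_zero h hT0 _
  have hct : c ≠ ⊤ := Zf_ne_top h hT0 _
  have hsq : a ^ 2 ≤ b * c := by
    calc a ^ 2 ≤ (b ^ (1 - (1 / 2 : ℝ)) * c ^ (1 / 2 : ℝ)) ^ 2 := by gcongr
      _ = b * c := by
        rw [mul_pow, ← ENNReal.rpow_natCast, ← ENNReal.rpow_mul, ← ENNReal.rpow_natCast,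
          ← ENNReal.rpow_mul]
        norm_num
  rw [ENNReal.inv_le_iff_le_mul (fun h' => absurd h' (ENNReal.mul_ne_top hct (by
    exact ENNReal.pow_ne_top (ENNReal.inv_ne_top.2 ha0)))) (fun h' => absurd h' hbt)]
  have hainv : a⁻¹ ^ 2 * a ^ 2 = 1 := by
    rw [← mul_pow, ENNReal.inv_mul_cancel ha0 hat, one_pow]
  calc (1 : ℝ≥0∞) = a⁻¹ ^ 2 * a ^ 2 := hainv.symm
    _ ≤ a⁻¹ ^ 2 * (b * c) := by gcongr
    _ = b * (c * a⁻¹ ^ 2) := by ring

/-- The shifted negative moment. -/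
lemma H_bound [IsProbabilityMeasure μ] (hn : 1 ≤ n) (h : SG μ A) (hT0 : 0 < T)
    (hT : T ≤ 1 / (16 * A)) (u : E n) :
    ∫⁻ ξ, (Zf μ T (Real.sqrt T • ξ + T • u))⁻¹ ∂(gam n) ≤
      eo (2 * A * T ^ 2 * ‖u‖ ^ 2 + (3 + 726.5 * A ^ 2 * T ^ 2 * n)) := by
  have hm : ∀ w : E n, Measurable fun ξ : E n => Zf μ T (Real.sqrt T • ξ - w) := by
    intro w
    exact (measurable_Zf T).comp (by fun_prop)
  have hm0 : Measurable fun ξ : E n => (Zf μ T (Real.sqrt T • ξ))⁻¹ := by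
    exact ((measurable_Zf T).comp (by fun_prop)).inv
  calc ∫⁻ ξ, (Zf μ T (Real.sqrt T • ξ + T • u))⁻¹ ∂(gam n)
      ≤ ∫⁻ ξ, Zf μ T (Real.sqrt T • ξ - T • u) * ((Zf μ T (Real.sqrt T • ξ))⁻¹) ^ 2 ∂(gam n) :=
        lintegral_mono fun ξ => Zf_inv_le h hT0.le _ _
    _ ≤ eo (((4 * A * T ^ 2 * ‖u‖ ^ 2 + 8 * A ^ 2 * T ^ 2 * n) +
          (6 + 1445 * A ^ 2 * T ^ 2 * n)) / 2) := by
        apply lintegral_mul_le_of_sq_le (gam n) (hm _) (hm0.pow_const 2)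
          (second_moment h hT0 hT u)
        calc ∫⁻ ξ, (((Zf μ T (Real.sqrt T • ξ))⁻¹) ^ 2) ^ 2 ∂(gam n)
            = ∫⁻ ξ, ((Zf μ T (Real.sqrt T • ξ))⁻¹) ^ 4 ∂(gam n) := by
              refine lintegral_congr fun ξ => ?_
              rw [← pow_mul]
          _ ≤ _ := null_bound hn h hT0 hT
    _ = eo (2 * A * T ^ 2 * ‖u‖ ^ 2 + (3 + 726.5 * A ^ 2 * T ^ 2 * n)) := by
        congr 1
        ring

/-- The kernel. -/
noncomputable def Kf (μ : Measure (E n)) (T : ℝ) (p : E n × E n) : ℝ≥0∞ :=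
  ∫⁻ ξ, wt T (Real.sqrt T • ξ) p.1 * wt T (Real.sqrt T • ξ) p.2 * (Zf μ T (Real.sqrt T • ξ))⁻¹
    ∂(gam n)

lemma measurable_Kf [SFinite μ] (T : ℝ) : Measurable (Kf (n := n) μ T) := by
  unfold Kf
  apply Measurable.lintegral_prod_right'
    (f := fun q : (E n × E n) × E n => wt T (Real.sqrt T • q.2) q.1.1 *
      wt T (Real.sqrt T • q.2) q.1.2 * (Zf μ T (Real.sqrt T • q.2))⁻¹)
  have h1 : Measurable fun q : (E n × E n) × E n => (Zf μ T (Real.sqrt T • q.2))⁻¹ :=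
    ((measurable_Zf T).comp (by fun_prop)).inv
  have h2 : Measurable fun q : (E n × E n) × E n => wt T (Real.sqrt T • q.2) q.1.1 := by
    unfold wt
    fun_prop
  have h3 : Measurable fun q : (E n × E n) × E n => wt T (Real.sqrt T • q.2) q.1.2 := by
    unfold wt
    fun_prop
  exact (h2.mul h3).mul h1

lemma Kf_eq [SFinite μ] (hT0 : 0 ≤ T) (p : E n × E n) :
    Kf μ T p = eo (T * ⟪p.1, p.2⟫) *
      ∫⁻ ξ, (Zf μ T (Real.sqrt T • ξ + T • (p.1 + p.2)))⁻¹ ∂(gam n) := by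
  unfold Kf
  set v : E n := Real.sqrt T • (p.1 + p.2) with hv
  have hG : Measurable fun ξ : E n => (Zf μ T (Real.sqrt T • ξ))⁻¹ :=
    ((measurable_Zf T).comp (by fun_prop)).inv
  have h0 := lintegral_gam_shift n (fun ξ : E n => (Zf μ T (Real.sqrt T • ξ))⁻¹) hG v
  have e1 : ∀ ξ : E n, Real.sqrt T • (ξ + v) = Real.sqrt T • ξ + T • (p.1 + p.2) := by
    intro ξ
    rw [smul_add, hv, smul_smul, Real.mul_self_sqrt hT0]
  simp_rw [e1] at h0
  rw [← h0, ← lintegral_const_mul _ (by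
    apply Measurable.mul hG
    fun_prop)]
  refine lintegral_congr fun ξ => ?_
  have e2 : wt T (Real.sqrt T • ξ) p.1 * wt T (Real.sqrt T • ξ) p.2 =
      eo (T * ⟪p.1, p.2⟫) * eo (⟪ξ, v⟫ - ‖v‖ ^ 2 / 2) := by
    unfold wt
    rw [← eo_add, ← eo_add]
    congr 1
    rw [hv, norm_smul, mul_pow, Real.norm_eq_abs, sq_abs, Real.sq_sqrt hT0, @norm_add_sq_real,
      inner_smul_right, inner_add_right, inner_smul_left, inner_smul_left]
    simp
    ring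
  rw [e2]
  ring

lemma Kf_le [IsProbabilityMeasure μ] (hn : 1 ≤ n) (h : SG μ A) (hT0 : 0 < T)
    (hT : T ≤ 1 / (16 * A)) (p : E n × E n) :
    Kf μ T p ≤ eo (T * ⟪p.1, p.2⟫ + 4 * A * T ^ 2 * (‖p.1‖ ^ 2 + ‖p.2‖ ^ 2) +
      (3 + 726.5 * A ^ 2 * T ^ 2 * n)) := by
  rw [Kf_eq hT0.le]
  have hA := h.pos
  refine (mul_le_mul_right (H_bound hn h hT0 hT (p.1 + p.2)) _).trans ?_
  rw [← eo_add]
  apply eo_le
  have h1 : ‖p.1 + p.2‖ ^ 2 ≤ 2 * ‖p.1‖ ^ 2 + 2 * ‖p.2‖ ^ 2 := by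
    have h2 := @norm_add_sq_real (E n) _ _ p.1 p.2
    have h3 := @norm_sub_sq_real (E n) _ _ p.1 p.2
    nlinarith [sq_nonneg ‖p.1 - p.2‖]
  have h4 : 0 ≤ A * T ^ 2 := by positivity
  nlinarith

/-- Integral of the cube of the kernel. -/
lemma Kf_cube [IsProbabilityMeasure μ] (hn : 1 ≤ n) (h : SG μ A) (hT0 : 0 < T)
    (hT : T ≤ 1 / (16 * A)) :
    ∫⁻ p, Kf μ T p ^ (3 : ℝ) ∂(μ.prod μ) ≤ eo (3 * (3 + 800 * A ^ 2 * T ^ 2 * n)) := by
  have hA := h.pos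
  have hAT := AT_le hA hT
  set c₀ := 3 + 726.5 * A ^ 2 * T ^ 2 * n with hc₀
  have e1 : ∀ p : E n × E n, Kf μ T p ^ (3 : ℝ) ≤
      eo (3 * c₀) * eo (3 * T * ⟪p.1, p.2⟫ + 12 * A * T ^ 2 * (‖p.1‖ ^ 2 + ‖p.2‖ ^ 2)) := by
    intro p
    calc Kf μ T p ^ (3 : ℝ)
        ≤ eo (T * ⟪p.1, p.2⟫ + 4 * A * T ^ 2 * (‖p.1‖ ^ 2 + ‖p.2‖ ^ 2) + c₀) ^ (3 : ℝ) := by
          gcongr
          exact Kf_le hn h hT0 hT p
      _ = eo (3 * c₀) * eo (3 * T * ⟪p.1, p.2⟫ + 12 * A * T ^ 2 * (‖p.1‖ ^ 2 + ‖p.2‖ ^ 2)) := by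
          rw [eo_rpow _ (by norm_num), ← eo_add]
          congr 1
          ring
  have hinner : ∀ x : E n, ∫⁻ y, eo (3 * T * ⟪x, y⟫) * eo (12 * A * T ^ 2 * ‖y‖ ^ 2) ∂μ ≤
      eo ((36 * A * T ^ 2 * ‖x‖ ^ 2 + 96 * A ^ 2 * T ^ 2 * n) / 2) := by
    intro x
    apply lintegral_mul_le_of_sq_le μ (by fun_prop) (by fun_prop)
    · calc ∫⁻ y, eo (3 * T * ⟪x, y⟫) ^ 2 ∂μ
          = ∫⁻ y, eo ⟪(6 * T) • x, y⟫ ∂μ := by
            refine lintegral_congr fun y => ?_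
            rw [eo_sq, inner_smul_left]
            congr 1
            simp
            ring
        _ ≤ eo (A * ‖(6 * T) • x‖ ^ 2) := h.mgf _
        _ = eo (36 * A * T ^ 2 * ‖x‖ ^ 2) := by
            congr 1
            rw [norm_smul, mul_pow, Real.norm_eq_abs, sq_abs]
            ring
    · calc ∫⁻ y, eo (12 * A * T ^ 2 * ‖y‖ ^ 2) ^ 2 ∂μ
          = ∫⁻ y, eo (24 * A * T ^ 2 * ‖y‖ ^ 2) ∂μ := by
            refine lintegral_congr fun y => ?_
            rw [eo_sq]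
            congr 1
            ring
        _ ≤ eo (4 * 24 * A ^ 2 * T ^ 2 * n) := h.moment2 hT0.le hT (by norm_num) (by norm_num)
        _ = eo (96 * A ^ 2 * T ^ 2 * n) := by
            congr 1
            ring
  calc ∫⁻ p, Kf μ T p ^ (3 : ℝ) ∂(μ.prod μ)
      ≤ ∫⁻ p : E n × E n, eo (3 * c₀) *
          eo (3 * T * ⟪p.1, p.2⟫ + 12 * A * T ^ 2 * (‖p.1‖ ^ 2 + ‖p.2‖ ^ 2)) ∂(μ.prod μ) :=
        lintegral_mono e1
    _ = eo (3 * c₀) *
          ∫⁻ p : E n × E n, eo (3 * T * ⟪p.1, p.2⟫ + 12 * A * T ^ 2 * (‖p.1‖ ^ 2 + ‖p.2‖ ^ 2))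
            ∂(μ.prod μ) := by
        rw [lintegral_const_mul _ (by fun_prop)]
    _ ≤ eo (3 * c₀) * eo (168 * A ^ 2 * T ^ 2 * n) := by
        gcongr
        rw [lintegral_prod _ (by
          apply Measurable.aemeasurable
          fun_prop)]
        have e2 : ∀ x : E n, ∫⁻ y, eo (3 * T * ⟪x, y⟫ + 12 * A * T ^ 2 * (‖x‖ ^ 2 + ‖y‖ ^ 2)) ∂μ ≤
            eo (48 * A ^ 2 * T ^ 2 * n) * eo (30 * A * T ^ 2 * ‖x‖ ^ 2) := by
          intro x
          have e3 : ∀ y : E n, eo (3 * T * ⟪x, y⟫ + 12 * A * T ^ 2 * (‖x‖ ^ 2 + ‖y‖ ^ 2)) =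
              eo (12 * A * T ^ 2 * ‖x‖ ^ 2) * (eo (3 * T * ⟪x, y⟫) * eo (12 * A * T ^ 2 * ‖y‖ ^ 2)) := by
            intro y
            rw [← eo_add, ← eo_add]
            congr 1
            ring
          simp_rw [e3]
          rw [lintegral_const_mul _ (by fun_prop)]
          calc eo (12 * A * T ^ 2 * ‖x‖ ^ 2) *
                ∫⁻ y, eo (3 * T * ⟪x, y⟫) * eo (12 * A * T ^ 2 * ‖y‖ ^ 2) ∂μ
              ≤ eo (12 * A * T ^ 2 * ‖x‖ ^ 2) *
                eo ((36 * A * T ^ 2 * ‖x‖ ^ 2 + 96 * A ^ 2 * T ^ 2 * n) / 2) := by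
                gcongr
                exact hinner x
            _ = eo (48 * A ^ 2 * T ^ 2 * n) * eo (30 * A * T ^ 2 * ‖x‖ ^ 2) := by
                rw [← eo_add, ← eo_add]
                congr 1
                ring
        calc ∫⁻ x, ∫⁻ y, eo (3 * T * ⟪(x, y).1, (x, y).2⟫ +
              12 * A * T ^ 2 * (‖(x, y).1‖ ^ 2 + ‖(x, y).2‖ ^ 2)) ∂μ ∂μ
            ≤ ∫⁻ x, eo (48 * A ^ 2 * T ^ 2 * n) * eo (30 * A * T ^ 2 * ‖x‖ ^ 2) ∂μ :=
              lintegral_mono e2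
          _ = eo (48 * A ^ 2 * T ^ 2 * n) * ∫⁻ x, eo (30 * A * T ^ 2 * ‖x‖ ^ 2) ∂μ := by
              rw [lintegral_const_mul _ (by fun_prop)]
          _ ≤ eo (48 * A ^ 2 * T ^ 2 * n) * eo (4 * 30 * A ^ 2 * T ^ 2 * n) := by
              gcongr
              exact h.moment2 hT0.le hT (by norm_num) (by norm_num)
          _ = eo (168 * A ^ 2 * T ^ 2 * n) := by
              rw [← eo_add]
              congr 1
              ring
    _ ≤ eo (3 * (3 + 800 * A ^ 2 * T ^ 2 * n)) := by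
        rw [← eo_add]
        apply eo_le
        rw [hc₀]
        have h0 : 0 ≤ A ^ 2 * T ^ 2 * n := by positivity
        nlinarith

/-- Defective hypercontractivity of the posterior kernel. -/
theorem hc [IsProbabilityMeasure μ] (hn : 1 ≤ n) (h : SG μ A) (hT0 : 0 < T)
    (hT : T ≤ 1 / (16 * A)) {f : E n → ℝ≥0∞} (hf : Measurable f) :
    ∫⁻ ξ, (∫⁻ x, f x * wt T (Real.sqrt T • ξ) x ∂μ) ^ 2 * (Zf μ T (Real.sqrt T • ξ))⁻¹ ∂(gam n) ≤
      eo (3 + 800 * A ^ 2 * T ^ 2 * n) * (∫⁻ x, f x ^ (3 / 2 : ℝ) ∂μ) ^ (4 / 3 : ℝ) := by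
  have hinv : Measurable fun ξ : E n => (Zf μ T (Real.sqrt T • ξ))⁻¹ :=
    ((measurable_Zf T).comp (by fun_prop)).inv
  have hwt1 : Measurable fun q : (E n × E n) × E n => wt T (Real.sqrt T • q.2) q.1.1 := by
    unfold wt
    fun_prop
  have hwt2 : Measurable fun q : (E n × E n) × E n => wt T (Real.sqrt T • q.2) q.1.2 := by
    unfold wt
    fun_prop
  have e1 : ∀ ξ : E n, (∫⁻ x, f x * wt T (Real.sqrt T • ξ) x ∂μ) ^ 2 * (Zf μ T (Real.sqrt T • ξ))⁻¹ =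
      ∫⁻ p : E n × E n, (f p.1 * f p.2) * (wt T (Real.sqrt T • ξ) p.1 * wt T (Real.sqrt T • ξ) p.2 *
        (Zf μ T (Real.sqrt T • ξ))⁻¹) ∂(μ.prod μ) := by
    intro ξ
    have hm : Measurable fun x : E n => f x * wt T (Real.sqrt T • ξ) x :=
      hf.mul (measurable_wt T _)
    have := lintegral_prod_mul (μ := μ) (ν := μ) hm.aemeasurable hm.aemeasurable
    rw [sq, ← this, ← lintegral_mul_const _ (by
      apply Measurable.mul
      · exact (hm.comp measurable_fst)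
      · exact (hm.comp measurable_snd))]
    refine lintegral_congr fun p => ?_
    ring
  simp_rw [e1]
  rw [lintegral_lintegral_swap (by
    apply Measurable.aemeasurable
    have h1 : Measurable fun q : E n × (E n × E n) => (Zf μ T (Real.sqrt T • q.1))⁻¹ :=
      hinv.comp measurable_fst
    have h2 : Measurable fun q : E n × (E n × E n) => wt T (Real.sqrt T • q.1) q.2.1 := by
      unfold wt
      fun_prop
    have h3 : Measurable fun q : E n × (E n × E n) => wt T (Real.sqrt T • q.1) q.2.2 := by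
      unfold wt
      fun_prop
    have h4 : Measurable fun q : E n × (E n × E n) => f q.2.1 * f q.2.2 :=
      (hf.comp (measurable_fst.comp measurable_snd)).mul (hf.comp (measurable_snd.comp measurable_snd))
    exact h4.mul ((h2.mul h3).mul h1))]
  have e2 : ∀ p : E n × E n, ∫⁻ ξ, (f p.1 * f p.2) * (wt T (Real.sqrt T • ξ) p.1 *
      wt T (Real.sqrt T • ξ) p.2 * (Zf μ T (Real.sqrt T • ξ))⁻¹) ∂(gam n) =
      (f p.1 * f p.2) * Kf μ T p := by
    intro p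
    unfold Kf
    rw [lintegral_const_mul]
    have h2 : Measurable fun ξ : E n => wt T (Real.sqrt T • ξ) p.1 := by
      unfold wt
      fun_prop
    have h3 : Measurable fun ξ : E n => wt T (Real.sqrt T • ξ) p.2 := by
      unfold wt
      fun_prop
    exact (h2.mul h3).mul hinv
  simp_rw [e2]
  -- Holder on the product
  have hpq : (3 / 2 : ℝ).HolderConjugate 3 := by
    constructor <;> norm_num
  have hH := ENNReal.lintegral_mul_le_Lp_mul_Lq (μ.prod μ) hpq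
    (f := fun p : E n × E n => f p.1 * f p.2) (g := Kf μ T)
    ((hf.comp measurable_fst).mul (hf.comp measurable_snd)).aemeasurable
    (measurable_Kf T).aemeasurable
  simp only [Pi.mul_apply] at hH
  refine hH.trans ?_
  have e3 : ∫⁻ p : E n × E n, (f p.1 * f p.2) ^ (3 / 2 : ℝ) ∂(μ.prod μ) =
      (∫⁻ x, f x ^ (3 / 2 : ℝ) ∂μ) ^ 2 := by
    have hm : Measurable fun x : E n => f x ^ (3 / 2 : ℝ) := hf.pow_const _
    have := lintegral_prod_mul (μ := μ) (ν := μ) hm.aemeasurable hm.aemeasurable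
    rw [sq, ← this]
    refine lintegral_congr fun p => ?_
    rw [ENNReal.mul_rpow_of_nonneg _ _ (by norm_num)]
  rw [e3, mul_comm]
  gcongr
  · calc (∫⁻ p, Kf μ T p ^ (3 : ℝ) ∂(μ.prod μ)) ^ (1 / (3 : ℝ))
        ≤ eo (3 * (3 + 800 * A ^ 2 * T ^ 2 * n)) ^ (1 / (3 : ℝ)) := by
          gcongr
          exact Kf_cube hn h hT0 hT
      _ = eo (3 + 800 * A ^ 2 * T ^ 2 * n) := by
          rw [eo_rpow _ (by norm_num)]
          congr 1
          ring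
  · apply le_of_eq
    rw [← ENNReal.rpow_natCast, ← ENNReal.rpow_mul]
    norm_num

end Vale.Agent.Lib.P245
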