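import Vale.Agent.Lib.P245.PLT
import Vale.Agent.Lib.P245.Bridge

/-!
# Logarithmic Sobolev inequality for strongly log-concave densities (Bobkov-Ledoux route).

No regularity of the density is used: only Prekopa-Leindler.
-/

open MeasureTheory Real Set Filter Topology
open scoped ENNReal RealInnerProductSpace

namespace Vale.Agent.Lib.P245

variable {n : ℕ}

/-- `κ`-strong log-concavity with general weights. -/
def StrongGen (κ : ℝ) (ϱ : E n → ℝ≥0∞) : Prop :=
  ∀ x z : E n, ∀ t : ℝ, 0 < t → t < 1 →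
    ϱ x ^ (1 - t) * ϱ z ^ t * eo (κ / 2 * (t * (1 - t)) * ‖x - z‖ ^ 2) ≤ ϱ ((1 - t) • x + t • z)

lemma norm_comb_sq (x z : E n) (t : ℝ) :
    ‖(1 - t) • x + t • z‖ ^ 2 =
      (1 - t) * ‖x‖ ^ 2 + t * ‖z‖ ^ 2 - t * (1 - t) * ‖x - z‖ ^ 2 := by
  rw [@norm_add_sq_real, @norm_sub_sq_real, norm_smul, norm_smul, inner_smul_left, inner_smul_right]
  simp only [mul_pow, Real.norm_eq_abs, sq_abs]
  simp
  ring

lemma tilt_strongGen {ρ : E n → ℝ} (h0 : ∀ x, 0 ≤ ρ x)
    (hlc : ∀ x z : E n, ∀ t : ℝ, 0 < t → t < 1 → ρ x ^ (1 - t) * ρ z ^ t ≤ ρ ((1 - t) • x + t • z))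
    (T : ℝ) (y : E n) : StrongGen T (tilt ρ T y) := by
  intro x z t ht0 ht1
  have h1t : 0 < 1 - t := by linarith
  unfold tilt
  have e : wt T y x ^ (1 - t) * wt T y z ^ t * eo (T / 2 * (t * (1 - t)) * ‖x - z‖ ^ 2) =
      wt T y ((1 - t) • x + t • z) := by
    unfold wt
    rw [eo_rpow _ h1t.le, eo_rpow _ ht0.le, ← eo_add, ← eo_add, norm_comb_sq, inner_add_right,
      inner_smul_right, inner_smul_right]
    congr 1
    ring
  have h1 : ENNReal.ofReal (ρ x) ^ (1 - t) * ENNReal.ofReal (ρ z) ^ t ≤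
      ENNReal.ofReal (ρ ((1 - t) • x + t • z)) := by
    rw [ENNReal.ofReal_rpow_of_nonneg (h0 x) h1t.le, ENNReal.ofReal_rpow_of_nonneg (h0 z) ht0.le,
      ← ENNReal.ofReal_mul (by have := h0 x; positivity)]
    exact ENNReal.ofReal_le_ofReal (hlc x z t ht0 ht1)
  rw [ENNReal.mul_rpow_of_nonneg _ _ h1t.le, ENNReal.mul_rpow_of_nonneg _ _ ht0.le]
  calc ENNReal.ofReal (ρ x) ^ (1 - t) * wt T y x ^ (1 - t) *
        (ENNReal.ofReal (ρ z) ^ t * wt T y z ^ t) * eo (T / 2 * (t * (1 - t)) * ‖x - z‖ ^ 2)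
      = (ENNReal.ofReal (ρ x) ^ (1 - t) * ENNReal.ofReal (ρ z) ^ t) *
          (wt T y x ^ (1 - t) * wt T y z ^ t * eo (T / 2 * (t * (1 - t)) * ‖x - z‖ ^ 2)) := by ring
    _ ≤ ENNReal.ofReal (ρ ((1 - t) • x + t • z)) * wt T y ((1 - t) • x + t • z) := by
        rw [e]
        gcongr

/-- The consequence of Prekopa-Leindler: the infimum convolution inequality. -/
lemma pl_step {κ : ℝ} {ϱ : E n → ℝ≥0∞} (hϱm : Measurable ϱ) (hϱ : StrongGen κ ϱ) {u D : E n → ℝ}
    (hum : Measurable u) (hDm : Measurable D) {Λ : ℝ}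
    (H2 : ∀ x v : E n, u x - D x * ‖v‖ - Λ * ‖v‖ ^ 2 ≤ u (x + v)) {t : ℝ} (ht0 : 0 < t) (ht1 : t < 1)
    (hκt : 0 < κ * (1 - t) - 2 * Λ * t) :
    (∫⁻ x, eo ((u x - t * D x ^ 2 / (2 * (κ * (1 - t) - 2 * Λ * t))) / (1 - t)) * ϱ x) ^ (1 - t) *
      (∫⁻ x, ϱ x) ^ t ≤ ∫⁻ x, eo (u x) * ϱ x := by
  have h1t : 0 < 1 - t := by linarith
  set K := κ * (1 - t) - 2 * Λ * t with hK
  apply pl_E_gen ht0 ht1 (by fun_prop) hϱm (by fun_prop)
  intro x z
  set m := (1 - t) • x + t • z with hm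
  set r := ‖x - z‖ with hr
  have hmv : m = x + t • (z - x) := by
    rw [hm, smul_sub, sub_smul, one_smul]
    abel
  have hv : ‖t • (z - x)‖ = t * r := by
    rw [norm_smul, Real.norm_of_nonneg ht0.le, norm_sub_rev]
  have h2 := H2 x (t • (z - x))
  rw [← hmv, hv] at h2
  have h3 : u x - t * D x ^ 2 / (2 * K) ≤ u m + κ / 2 * (t * (1 - t)) * r ^ 2 := by
    have h4 : 0 ≤ t / (2 * K) * (K * r - D x) ^ 2 := by positivity
    have h5 : t / (2 * K) * (K * r - D x) ^ 2 =
        t * K / 2 * r ^ 2 - t * D x * r + t * D x ^ 2 / (2 * K) := by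
      field_simp
      ring
    rw [h5] at h4
    have h6 : t * K / 2 * r ^ 2 = κ / 2 * (t * (1 - t)) * r ^ 2 - Λ * (t * r) ^ 2 := by
      rw [hK]
      ring
    rw [h6] at h4
    nlinarith
  rw [ENNReal.mul_rpow_of_nonneg _ _ h1t.le, eo_rpow _ h1t.le]
  have e1 : (u x - t * D x ^ 2 / (2 * K)) / (1 - t) * (1 - t) = u x - t * D x ^ 2 / (2 * K) := by
    field_simp
  rw [e1]
  calc eo (u x - t * D x ^ 2 / (2 * K)) * ϱ x ^ (1 - t) * ϱ z ^ t
      ≤ eo (u m + κ / 2 * (t * (1 - t)) * r ^ 2) * ϱ x ^ (1 - t) * ϱ z ^ t := by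
        gcongr
        exact eo_le h3
    _ = eo (u m) * (ϱ x ^ (1 - t) * ϱ z ^ t * eo (κ / 2 * (t * (1 - t)) * r ^ 2)) := by
        rw [eo_add]
        ring
    _ ≤ eo (u m) * ϱ m := by
        gcongr
        exact hϱ x z t ht0 ht1

/-- Logarithmic Sobolev inequality in exponential form. -/
theorem lsi_core {κ : ℝ} (hκ : 0 < κ) {ϱ : E n → ℝ≥0∞} (hϱm : Measurable ϱ) (hϱ : StrongGen κ ϱ)
    {ν : Measure (E n)} (hν : ν = volume.withDensity ϱ) [IsFiniteMeasure ν] (hν0 : ν ≠ 0)
    {u D : E n → ℝ} (hum : Measurable u) (hDm : Measurable D) {U B : ℝ} (hub : ∀ x, |u x| ≤ U)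
    (hDb : ∀ x, |D x| ≤ B) {Λ : ℝ} (hΛ : 0 ≤ Λ)
    (H2 : ∀ x v : E n, u x - D x * ‖v‖ - Λ * ‖v‖ ^ 2 ≤ u (x + v)) :
    (∫ x, u x * Real.exp (u x) ∂ν) -
        (∫ x, Real.exp (u x) ∂ν) * (Real.log (∫ x, Real.exp (u x) ∂ν) - Real.log (ν.real univ)) ≤
      1 / (2 * κ) * ∫ x, D x ^ 2 * Real.exp (u x) ∂ν := by
  have hU0 : 0 ≤ U := (abs_nonneg _).trans (hub 0)
  have hB0 : 0 ≤ B := (abs_nonneg _).trans (hDb 0)
  -- integrability of bounded functions
  have hbd : ∀ φ : E n → ℝ, Measurable φ → (∃ C, ∀ x, |φ x| ≤ C) → Integrable φ ν := by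
    rintro φ hφ ⟨C, hC⟩
    exact Integrable.of_bound hφ.aestronglyMeasurable C (Eventually.of_forall fun x => by
      rw [Real.norm_eq_abs]
      exact hC x)
  have hexp_le : ∀ x, Real.exp (u x) ≤ Real.exp U := fun x =>
    Real.exp_le_exp.2 ((le_abs_self _).trans (hub x))
  have hexp_ge : ∀ x, Real.exp (-U) ≤ Real.exp (u x) := fun x =>
    Real.exp_le_exp.2 (by have := (abs_le.1 (hub x)).1; linarith)
  have hbE : ∃ C, ∀ x, |Real.exp (u x)| ≤ C :=
    ⟨Real.exp U, fun x => by rw [abs_of_pos (Real.exp_pos _)]; exact hexp_le x⟩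
  have hbuE : ∃ C, ∀ x, |u x * Real.exp (u x)| ≤ C :=
    ⟨U * Real.exp U, fun x => by
      rw [abs_mul, abs_of_pos (Real.exp_pos _)]
      exact mul_le_mul (hub x) (hexp_le x) (Real.exp_pos _).le hU0⟩
  have hbDE : ∃ C, ∀ x, |D x ^ 2 * Real.exp (u x)| ≤ C :=
    ⟨B ^ 2 * Real.exp U, fun x => by
      rw [abs_mul, abs_of_pos (Real.exp_pos _), abs_pow]
      exact mul_le_mul (pow_le_pow_left₀ (abs_nonneg _) (hDb x) 2) (hexp_le x) (Real.exp_pos _).le
        (by positivity)⟩
  have hiE : Integrable (fun x => Real.exp (u x)) ν := hbd _ (by fun_prop) hbE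
  have hiuE : Integrable (fun x => u x * Real.exp (u x)) ν := hbd _ (by fun_prop) hbuE
  have hiDE : Integrable (fun x => D x ^ 2 * Real.exp (u x)) ν := hbd _ (by fun_prop) hbDE
  set I := ∫ x, Real.exp (u x) ∂ν with hI
  set a := ∫ x, u x * Real.exp (u x) ∂ν with ha
  set b := ∫ x, D x ^ 2 * Real.exp (u x) ∂ν with hb
  set Z := ν.real univ with hZ
  have hZ0 : 0 < Z := by
    rw [hZ, measureReal_def]
    apply ENNReal.toReal_pos _ (measure_ne_top _ _)
    simpa using hν0
  have hI0 : 0 < I := by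
    have h1 : ∫ _x : E n, Real.exp (-U) ∂ν ≤ I :=
      integral_mono (integrable_const _) hiE hexp_ge
    rw [integral_const, smul_eq_mul] at h1
    have : 0 < ν.real univ * Real.exp (-U) := mul_pos hZ0 (Real.exp_pos _)
    linarith
  have hb0 : 0 ≤ b := integral_nonneg fun x => by positivity
  -- the conversion between lintegral and integral
  have hconv : ∀ ψ : E n → ℝ, Measurable ψ → (∃ C, ∀ x, |ψ x| ≤ C) →
      ∫⁻ x, eo (ψ x) * ϱ x = ENNReal.ofReal (∫ x, Real.exp (ψ x) ∂ν) := by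
    rintro ψ hψ ⟨C, hC⟩
    have hi : Integrable (fun x => Real.exp (ψ x)) ν :=
      hbd _ (by fun_prop) ⟨Real.exp C, fun x => by
        rw [abs_of_pos (Real.exp_pos _)]
        exact Real.exp_le_exp.2 ((le_abs_self _).trans (hC x))⟩
    rw [ofReal_integral_eq_lintegral_ofReal hi (Eventually.of_forall fun x => (Real.exp_pos _).le)]
    rw [hν, lintegral_withDensity_eq_lintegral_mul _ hϱm (by fun_prop)]
    refine lintegral_congr fun x => ?_
    simp only [Pi.mul_apply]
    unfold eo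
    ring
  have hmass : ∫⁻ x, ϱ x = ENNReal.ofReal Z := by
    rw [hZ, measureReal_def, ENNReal.ofReal_toReal (measure_ne_top _ _), hν, withDensity_apply _ .univ]
    simp
  -- the functions of `t`
  set K : ℝ → ℝ := fun t => κ * (1 - t) - 2 * Λ * t with hKdef
  set β : ℝ → ℝ := fun t => (a - b / (2 * K t)) / (1 - t) with hβ
  have hK0 : K 0 = κ := by simp [hKdef]
  have hKc : ContinuousAt K 0 := by
    rw [hKdef]
    fun_prop
  have hK2c : ContinuousAt (fun t => a - b / (2 * K t)) 0 := by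
    have h2K : ContinuousAt (fun t => 2 * K t) 0 := continuousAt_const.mul hKc
    have h2K0 : 2 * K 0 ≠ 0 := by
      rw [hK0]
      positivity
    exact continuousAt_const.sub (continuousAt_const.div h2K h2K0)
  have hβc : ContinuousAt β 0 := by
    apply ContinuousAt.div hK2c (by fun_prop)
    norm_num
  have hdenc : ContinuousAt (fun t => I + t * β t) 0 :=
    continuousAt_const.add (continuousAt_id.mul hβc)
  -- eventually
  have hev1 : ∀ᶠ t in 𝓝[>] (0 : ℝ), 0 < t ∧ t < 1 ∧ 0 < K t ∧ 0 < I + t * β t := by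
    have h1 : ∀ᶠ t in 𝓝[>] (0 : ℝ), 0 < t := eventually_mem_nhdsWithin
    have h2 : ∀ᶠ t in 𝓝 (0 : ℝ), t < 1 := eventually_lt_nhds (by norm_num)
    have h3 : ∀ᶠ t in 𝓝 (0 : ℝ), 0 < K t := hKc.eventually (lt_mem_nhds (by rw [hK0]; exact hκ))
    have h4 : ∀ᶠ t in 𝓝 (0 : ℝ), 0 < I + t * β t := hdenc.eventually (lt_mem_nhds (by simpa using hI0))
    filter_upwards [h1, nhdsWithin_le_nhds h2, nhdsWithin_le_nhds h3, nhdsWithin_le_nhds h4]
      with t a1 a2 a3 a4
    exact ⟨a1, a2, a3, a4⟩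
  -- the main inequality at positive `t`
  have hmain : ∀ t, 0 < t → t < 1 → 0 < K t → 0 < I + t * β t →
      (1 - t) * β t / (I + t * β t) ≤ Real.log I - Real.log Z := by
    intro t ht0 ht1 hKt hden
    have h1t : 0 < 1 - t := by linarith
    set ψ : E n → ℝ := fun x => (u x - t * D x ^ 2 / (2 * K t)) / (1 - t) with hψ
    have hψm : Measurable ψ := by
      rw [hψ]
      fun_prop
    have hψb : ∃ C, ∀ x, |ψ x| ≤ C := by
      refine ⟨(U + t * B ^ 2 / (2 * K t)) / (1 - t), fun x => ?_⟩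
      rw [hψ]
      simp only
      rw [abs_div, abs_of_pos h1t]
      apply div_le_div_of_nonneg_right _ h1t.le
      refine (abs_sub _ _).trans ?_
      apply add_le_add (hub x)
      rw [abs_of_nonneg (by positivity)]
      have h4 : D x ^ 2 ≤ B ^ 2 := by
        rw [← sq_abs]
        have := hDb x
        gcongr
      gcongr
    have hPL := pl_step hϱm hϱ hum hDm H2 ht0 ht1 hKt
    rw [hconv ψ hψm hψb, hmass, hconv u hum ⟨U, hub⟩] at hPL
    set J := ∫ x, Real.exp (ψ x) ∂ν with hJ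
    have hiJ : Integrable (fun x => Real.exp (ψ x)) ν := by
      obtain ⟨C, hC⟩ := hψb
      exact hbd _ (by fun_prop) ⟨Real.exp C, fun x => by
        rw [abs_of_pos (Real.exp_pos _)]
        exact Real.exp_le_exp.2 ((le_abs_self _).trans (hC x))⟩
    -- lower bound for `J`
    have hJlow : I + t * β t ≤ J := by
      have hpt : ∀ x, Real.exp (u x) + (t / (1 - t)) *
          (u x * Real.exp (u x) - (1 / (2 * K t)) * (D x ^ 2 * Real.exp (u x))) ≤ Real.exp (ψ x) := by
        intro x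
        set s := (t / (1 - t)) * (u x - D x ^ 2 / (2 * K t)) with hs
        have e1 : ψ x = u x + s := by
          rw [hψ, hs]
          field_simp
          ring
        have h5 := Real.add_one_le_exp s
        rw [e1, Real.exp_add]
        have e2 : Real.exp (u x) + t / (1 - t) *
            (u x * Real.exp (u x) - 1 / (2 * K t) * (D x ^ 2 * Real.exp (u x))) =
            Real.exp (u x) * (s + 1) := by
          rw [hs]
          field_simp
          ring
        rw [e2]
        exact mul_le_mul_of_nonneg_left h5 (Real.exp_pos _).le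
      have hi1 : Integrable (fun x => (1 / (2 * K t)) * (D x ^ 2 * Real.exp (u x))) ν :=
        hiDE.const_mul _
      have hi2 : Integrable (fun x => u x * Real.exp (u x) -
          (1 / (2 * K t)) * (D x ^ 2 * Real.exp (u x))) ν := hiuE.sub hi1
      have hi3 : Integrable (fun x => (t / (1 - t)) * (u x * Real.exp (u x) -
          (1 / (2 * K t)) * (D x ^ 2 * Real.exp (u x)))) ν := hi2.const_mul _
      have hint : Integrable (fun x => Real.exp (u x) + (t / (1 - t)) *
          (u x * Real.exp (u x) - (1 / (2 * K t)) * (D x ^ 2 * Real.exp (u x)))) ν :=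
        hiE.add hi3
      have h6 := integral_mono hint hiJ hpt
      have h7 : ∫ x, (Real.exp (u x) + (t / (1 - t)) *
          (u x * Real.exp (u x) - (1 / (2 * K t)) * (D x ^ 2 * Real.exp (u x)))) ∂ν =
          I + t * β t := by
        rw [integral_add hiE hi3, integral_const_mul, integral_sub hiuE hi1, integral_const_mul, hβ]
        simp only
        rw [← hI, ← ha, ← hb]
        field_simp
      rwa [h7] at h6
    have hJ0 : 0 < J := lt_of_lt_of_le hden hJlow
    -- real form of Prekopa-Leindler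
    have hPL2 : J ^ (1 - t) * Z ^ t ≤ I := by
      rw [ENNReal.ofReal_rpow_of_nonneg hJ0.le h1t.le, ENNReal.ofReal_rpow_of_nonneg hZ0.le ht0.le,
        ← ENNReal.ofReal_mul (by positivity)] at hPL
      exact (ENNReal.ofReal_le_ofReal_iff hI0.le).1 hPL
    have hlog : (1 - t) * Real.log J + t * Real.log Z ≤ Real.log I := by
      have h8 := Real.log_le_log (by positivity) hPL2
      rwa [Real.log_mul (by positivity) (by positivity), Real.log_rpow hJ0, Real.log_rpow hZ0] at h8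
    have hlogJ : Real.log (I + t * β t) ≤ Real.log J := Real.log_le_log hden hJlow
    -- tangent line bound
    have hlogI : Real.log I + t * β t / (I + t * β t) ≤ Real.log (I + t * β t) := by
      have h9 := Real.one_sub_inv_le_log_of_pos (div_pos hden hI0)
      rw [Real.log_div hden.ne' hI0.ne'] at h9
      have e3 : 1 - ((I + t * β t) / I)⁻¹ = t * β t / (I + t * β t) := by
        field_simp
        ring
      rw [e3] at h9
      linarith
    have h10 : (1 - t) * (Real.log I + t * β t / (I + t * β t)) + t * Real.log Z ≤ Real.log I := by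
      have := mul_le_mul_of_nonneg_left (hlogI.trans hlogJ) h1t.le
      linarith
    have h11 : t * ((1 - t) * β t / (I + t * β t)) ≤ t * (Real.log I - Real.log Z) := by
      have e4 : t * ((1 - t) * β t / (I + t * β t)) = (1 - t) * (t * β t / (I + t * β t)) := by
        ring
      rw [e4]
      nlinarith
    exact le_of_mul_le_mul_left h11 ht0
  -- passage to the limit
  have hlim : Tendsto (fun t => (1 - t) * β t / (I + t * β t)) (𝓝[>] (0 : ℝ))
      (𝓝 ((1 - 0) * β 0 / (I + 0 * β 0))) := by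
    apply Tendsto.mono_left _ nhdsWithin_le_nhds
    apply ContinuousAt.tendsto
    apply ContinuousAt.div _ hdenc (by simpa using hI0.ne')
    exact (by fun_prop : ContinuousAt (fun t : ℝ => 1 - t) 0).mul hβc
  have hfin := le_of_tendsto hlim (hev1.mono fun t h => hmain t h.1 h.2.1 h.2.2.1 h.2.2.2)
  have e5 : (1 - 0) * β 0 / (I + 0 * β 0) = (a - b / (2 * κ)) / I := by
    simp [hβ, hK0]
  rw [e5, div_le_iff₀ hI0] at hfin
  have e6 : 1 / (2 * κ) * b = b / (2 * κ) := by ring
  rw [e6]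
  nlinarith

end Vale.Agent.Lib.P245
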