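import Vale.Agent.Lib.P245.Subg

/-!
# Negative moments of the partition function under the null model.
-/

open MeasureTheory Real Set
open scoped ENNReal RealInnerProductSpace NNReal

namespace Vale.Agent.Lib.P245

variable {n : ℕ} {μ : Measure (E n)} {A T : ℝ}

lemma Zf_holder [SFinite μ] (T : ℝ) (y y' : E n) {τ : ℝ} (h0 : 0 ≤ τ) (h1 : τ ≤ 1) :
    Zf μ T ((1 - τ) • y + τ • y') ≤ Zf μ T y ^ (1 - τ) * Zf μ T y' ^ τ := by
  unfold Zf
  refine le_trans (le_of_eq ?_) (ENNReal.lintegral_mul_norm_pow_le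
    (measurable_wt T y).aemeasurable (measurable_wt T y').aemeasurable
    (by linarith) h0 (by ring))
  refine lintegral_congr fun x => ?_
  unfold wt
  rw [eo_rpow _ (by linarith), eo_rpow _ h0, ← eo_add]
  congr 1
  rw [inner_add_left, inner_smul_left, inner_smul_left]
  simp
  ring

/-- The log partition function in Gaussian coordinates. -/
noncomputable def zeta (μ : Measure (E n)) (T : ℝ) (ξ : E n) : ℝ :=
  Real.log (Zf μ T (Real.sqrt T • ξ)).toReal

lemma eo_zeta [IsProbabilityMeasure μ] (h : SG μ A) (hT : 0 ≤ T) (ξ : E n) :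
    eo (zeta μ T ξ) = Zf μ T (Real.sqrt T • ξ) := by
  unfold eo zeta
  have h1 := Zf_ne_top h hT (Real.sqrt T • ξ)
  have h2 := Zf_ne_zero h hT (Real.sqrt T • ξ)
  rw [Real.exp_log (ENNReal.toReal_pos h2 h1), ENNReal.ofReal_toReal h1]

lemma zeta_ge [IsProbabilityMeasure μ] (h : SG μ A) (hT : 0 ≤ T) (ξ : E n) :
    -(2 * A * T * n) ≤ zeta μ T ξ := by
  rw [← eo_le_iff, eo_zeta h hT]
  exact h.Zf_ge hT _

lemma zeta_le [IsProbabilityMeasure μ] (h : SG μ A) (hT : 0 ≤ T) (ξ : E n) :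
    zeta μ T ξ ≤ A * T * ‖ξ‖ ^ 2 := by
  rw [← eo_le_iff, eo_zeta h hT]
  refine (h.Zf_le hT _).trans (eo_le (le_of_eq ?_))
  rw [norm_smul, mul_pow, Real.norm_eq_abs, sq_abs, Real.sq_sqrt hT]
  ring

lemma zeta_convex [IsProbabilityMeasure μ] (h : SG μ A) (hT : 0 ≤ T) (ξ ξ' : E n) {τ : ℝ}
    (h0 : 0 ≤ τ) (h1 : τ ≤ 1) :
    zeta μ T ((1 - τ) • ξ + τ • ξ') ≤ (1 - τ) * zeta μ T ξ + τ * zeta μ T ξ' := by
  rw [← eo_le_iff, eo_zeta h hT, eo_add, mul_comm (1 - τ), mul_comm τ,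
    ← eo_rpow _ (by linarith), ← eo_rpow _ h0, eo_zeta h hT, eo_zeta h hT]
  have e : Real.sqrt T • ((1 - τ) • ξ + τ • ξ') =
      (1 - τ) • (Real.sqrt T • ξ) + τ • (Real.sqrt T • ξ') := by
    rw [smul_add, smul_comm, smul_comm τ]
  rw [e]
  exact Zf_holder T _ _ h0 h1

/-- A convex function bounded below and above on a larger ball is Lipschitz on a ball. -/
lemma lipschitz_of_convex {f : E n → ℝ}
    (hconv : ∀ ξ ξ' : E n, ∀ τ : ℝ, 0 ≤ τ → τ ≤ 1 →
      f ((1 - τ) • ξ + τ • ξ') ≤ (1 - τ) * f ξ + τ * f ξ')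
    {ρ l u : ℝ} (hρ : 0 < ρ) (hl : ∀ ξ, l ≤ f ξ) (hu : ∀ ξ, ‖ξ‖ ≤ 2 * ρ → f ξ ≤ u) (ξ ξ' : E n)
    (hξ : ‖ξ‖ ≤ ρ) (hξ' : ‖ξ'‖ ≤ ρ) :
    f ξ' - f ξ ≤ ((u - l) / ρ) * ‖ξ' - ξ‖ := by
  have hul : 0 ≤ u - l := by
    have := hl 0
    have h2 := hu 0 (by simp; positivity)
    linarith
  set d := ‖ξ' - ξ‖ with hd
  by_cases hd0 : d = 0
  · have : ξ' = ξ := by
      have := norm_eq_zero.1 hd0
      exact sub_eq_zero.1 this
    rw [this, sub_self]
    exact mul_nonneg (div_nonneg hul hρ.le) (norm_nonneg _)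
  have hdp : 0 < d := lt_of_le_of_ne (norm_nonneg _) (Ne.symm hd0)
  set ξ'' := ξ' + (ρ / d) • (ξ' - ξ) with hξ''
  have hn'' : ‖ξ''‖ ≤ 2 * ρ := by
    calc ‖ξ''‖ ≤ ‖ξ'‖ + ‖(ρ / d) • (ξ' - ξ)‖ := norm_add_le _ _
      _ = ‖ξ'‖ + ρ := by
        rw [norm_smul, Real.norm_of_nonneg (by positivity), ← hd]
        field_simp
      _ ≤ 2 * ρ := by linarith
  set τ := d / (d + ρ) with hτ
  have hτ0 : 0 ≤ τ := by positivity
  have hτ1 : τ ≤ 1 := by
    rw [hτ, div_le_one (by positivity)]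
    linarith
  have hcomb : (1 - τ) • ξ + τ • ξ'' = ξ' := by
    have e1 : τ * (ρ / d) = 1 - τ := by
      rw [hτ]; field_simp; ring
    rw [hξ'', smul_add, smul_smul, e1, smul_sub]
    have e2 : (1 - τ) • ξ + (τ • ξ' + ((1 - τ) • ξ' - (1 - τ) • ξ)) = τ • ξ' + (1 - τ) • ξ' := by
      abel
    rw [e2, ← add_smul]
    simp
  have hc := hconv ξ ξ'' τ hτ0 hτ1
  rw [hcomb] at hc
  have h1 := hu ξ'' hn''
  have h2 := hl ξ
  have h3 : f ξ' - f ξ ≤ τ * (u - l) := by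
    have : τ * (f ξ'' - f ξ) ≤ τ * (u - l) := by
      apply mul_le_mul_of_nonneg_left _ hτ0
      linarith
    nlinarith
  refine h3.trans ?_
  have h4 : τ ≤ d / ρ := by
    rw [hτ]
    apply div_le_div_of_nonneg_left hdp.le hρ
    linarith
  calc τ * (u - l) ≤ d / ρ * (u - l) := mul_le_mul_of_nonneg_right h4 hul
    _ = (u - l) / ρ * d := by ring

lemma gam_lip_prod {F : E n → ℝ} {K : ℝ} (hF : ∀ x y, F x - F y ≤ K * ‖x - y‖)
    (hFm : Measurable F) :
    (∫⁻ x, eo (F x) ∂(gam n)) * (∫⁻ x, eo (-F x) ∂(gam n)) ≤ eo (K ^ 2) := by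
  have h := pl_lip_prod (κ := 1) (K := K) one_pos (measurable_gamDens n) (gamDens_strong n) hF hFm
  rw [lintegral_gam n _ (by fun_prop), lintegral_gam n _ (by fun_prop)]
  have e : ∫⁻ x, gamDens n x = 1 := by
    have := lintegral_gam n (fun _ => 1) measurable_const
    simp only [lintegral_const, measure_univ, mul_one] at this
    simpa using this.symm
  rw [e] at h
  simp only [mul_comm (gamDens n _)] at h ⊢
  simpa using h

lemma gam_lip_two {F : E n → ℝ} {K : ℝ} (hF : ∀ x y, F x - F y ≤ K * ‖x - y‖)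
    (hFm : Measurable F) :
    ∫⁻ x, eo (2 * F x) ∂(gam n) ≤ eo (K ^ 2) * (∫⁻ x, eo (F x) ∂(gam n)) ^ 2 := by
  have h := pl_lip_two (κ := 1) (K := K) one_pos (measurable_gamDens n) (gamDens_strong n) hF hFm
  rw [lintegral_gam n _ (by fun_prop), lintegral_gam n _ (by fun_prop)]
  have e : ∫⁻ x, gamDens n x = 1 := by
    have := lintegral_gam n (fun _ => 1) measurable_const
    simp only [lintegral_const, measure_univ, mul_one] at this
    simpa using this.symm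
  rw [e] at h
  simp only [mul_comm (gamDens n _)] at h ⊢
  simpa using h

/-- Integrating the tilt against the Gaussian. -/
lemma lintegral_wt_gam (hT : 0 ≤ T) (x : E n) :
    ∫⁻ ξ, wt T (Real.sqrt T • ξ) x ∂(gam n) = 1 := by
  have h := lintegral_gam_eo_inner n (Real.sqrt T • x)
  have e : ∀ ξ : E n, wt T (Real.sqrt T • ξ) x = eo ⟪ξ, Real.sqrt T • x⟫ * eo (-(T / 2 * ‖x‖ ^ 2)) := by
    intro ξ
    unfold wt
    rw [← eo_add, inner_smul_left, inner_smul_right]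
    simp [sub_eq_add_neg]
  simp_rw [e]
  rw [lintegral_mul_const _ (by fun_prop), h, ← eo_add]
  have e2 : ‖Real.sqrt T • x‖ ^ 2 / 2 + -(T / 2 * ‖x‖ ^ 2) = 0 := by
    rw [norm_smul, mul_pow, Real.norm_eq_abs, sq_abs, Real.sq_sqrt hT]
    ring
  rw [e2, eo_zero]

lemma lintegral_Zf_gam [IsProbabilityMeasure μ] (hT : 0 ≤ T) :
    ∫⁻ ξ, Zf μ T (Real.sqrt T • ξ) ∂(gam n) = 1 := by
  unfold Zf
  rw [lintegral_lintegral_swap (by
    apply Measurable.aemeasurable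
    unfold wt
    fun_prop)]
  simp_rw [lintegral_wt_gam hT]
  simp

/-- Second moment of the tilt in the Gaussian variable. -/
lemma lintegral_wt_sq_gam (hT : 0 ≤ T) (x : E n) :
    ∫⁻ ξ, wt T (Real.sqrt T • ξ) x ^ (2 : ℝ) ∂(gam n) = eo (T * ‖x‖ ^ 2) := by
  have h := lintegral_gam_eo_inner n ((2 * Real.sqrt T) • x)
  have e : ∀ ξ : E n, wt T (Real.sqrt T • ξ) x ^ (2 : ℝ) =
      eo ⟪ξ, (2 * Real.sqrt T) • x⟫ * eo (-(T * ‖x‖ ^ 2)) := by
    intro ξ
    unfold wt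
    rw [eo_rpow _ (by norm_num), ← eo_add, inner_smul_left, inner_smul_right]
    congr 1
    simp
    ring
  simp_rw [e]
  rw [lintegral_mul_const _ (by fun_prop), h, ← eo_add]
  congr 1
  rw [norm_smul, mul_pow, Real.norm_eq_abs, sq_abs, mul_pow, Real.sq_sqrt hT]
  ring

/-- The mass of the partition function outside the large ball is small. -/
lemma lintegral_Zf_out [IsProbabilityMeasure μ] (h : SG μ A) (hT0 : 0 ≤ T) (hT : T ≤ 1 / (16 * A)) :
    ∫⁻ ξ in {ξ : E n | 8 * (n : ℝ) ≤ ‖ξ‖ ^ 2}, Zf μ T (Real.sqrt T • ξ) ∂(gam n) ≤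
      eo (-(5 / 8) * n) := by
  have hA := h.pos
  set S := {ξ : E n | 8 * (n : ℝ) ≤ ‖ξ‖ ^ 2} with hS
  have hSm : MeasurableSet S := measurableSet_le measurable_const (by fun_prop)
  have hAT : A * T ≤ 1 / 16 := by
    calc A * T ≤ A * (1 / (16 * A)) := mul_le_mul_of_nonneg_left hT hA.le
      _ = 1 / 16 := by field_simp
  -- Tonelli
  unfold Zf
  rw [lintegral_lintegral_swap (by
    apply Measurable.aemeasurable
    unfold wt
    fun_prop)]
  -- Cauchy-Schwarz in the Gaussian variable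
  have hCS : ∀ x : E n, ∫⁻ ξ in S, wt T (Real.sqrt T • ξ) x ∂(gam n) ≤
      eo (-(3 / 4) * n) * eo (T / 2 * ‖x‖ ^ 2) := by
    intro x
    have hH := ENNReal.lintegral_mul_le_Lp_mul_Lq (gam n) (p := 2) (q := 2) (by
        constructor <;> norm_num)
      (f := S.indicator (1 : E n → ℝ≥0∞)) (g := fun ξ => wt T (Real.sqrt T • ξ) x)
      (measurable_one.indicator hSm).aemeasurable (by
        apply Measurable.aemeasurable
        unfold wt
        fun_prop)
    have e1 : ∫⁻ ξ in S, wt T (Real.sqrt T • ξ) x ∂(gam n) =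
        ∫⁻ ξ, (S.indicator (1 : E n → ℝ≥0∞) * fun ξ => wt T (Real.sqrt T • ξ) x) ξ ∂(gam n) := by
      rw [← lintegral_indicator hSm]
      refine lintegral_congr fun ξ => ?_
      by_cases hξ : ξ ∈ S <;> simp [hξ]
    rw [e1]
    refine hH.trans ?_
    have e2 : ∫⁻ ξ, S.indicator (1 : E n → ℝ≥0∞) ξ ^ (2 : ℝ) ∂(gam n) = gam n S := by
      rw [← lintegral_indicator_one hSm]
      refine lintegral_congr fun ξ => ?_
      by_cases hξ : ξ ∈ S <;> simp [hξ]
    rw [e2, lintegral_wt_sq_gam hT0]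
    have e3 : gam n S ≤ eo (-(3 / 2) * n) := by
      refine (gam_tail n (8 * n)).trans (eo_le (le_of_eq ?_))
      ring
    have e4 : eo (T * ‖x‖ ^ 2) ^ (1 / (2 : ℝ)) = eo (T / 2 * ‖x‖ ^ 2) := by
      rw [eo_rpow _ (by norm_num)]
      congr 1
      ring
    rw [e4]
    gcongr
    calc gam n S ^ (1 / (2 : ℝ)) ≤ eo (-(3 / 2) * n) ^ (1 / (2 : ℝ)) := by
          gcongr
      _ = eo (-(3 / 4) * n) := by
          rw [eo_rpow _ (by norm_num)]
          congr 1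
          ring
  calc ∫⁻ x, ∫⁻ ξ in S, wt T (Real.sqrt T • ξ) x ∂(gam n) ∂μ
      ≤ ∫⁻ x, eo (-(3 / 4) * n) * eo (T / 2 * ‖x‖ ^ 2) ∂μ := lintegral_mono hCS
    _ = eo (-(3 / 4) * n) * ∫⁻ x, eo (T / 2 * ‖x‖ ^ 2) ∂μ := by
        rw [lintegral_const_mul _ (by fun_prop)]
    _ ≤ eo (-(3 / 4) * n) * eo (4 * A * (T / 2) * n) := by
        gcongr
        apply h.moment (by positivity)
        have : T / 2 ≤ 1 / (16 * A) := by linarith [hT0]
        calc T / 2 ≤ 1 / (16 * A) := this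
          _ ≤ 1 / (8 * A) := by
            apply one_div_le_one_div_of_le (by positivity)
            linarith
    _ = eo (-(3 / 4) * n + 2 * (A * T) * n) := by
        rw [← eo_add]; congr 1; ring
    _ ≤ eo (-(5 / 8) * n) := by
        apply eo_le
        have hn : (0 : ℝ) ≤ n := by positivity
        nlinarith

lemma num_one : (eo (-(5 / 4)) + eo (-(5 / 8)) : ℝ≥0∞) ≤ 1 := by
  have h1 : Real.exp (-(5 / 4)) ≤ 1 / 3 := by
    rw [Real.exp_neg, inv_eq_one_div]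
    apply one_div_le_one_div_of_le (by norm_num)
    have := Real.quadratic_le_exp_of_nonneg (x := 5 / 4) (by norm_num)
    norm_num at this ⊢
    linarith
  have h2 : Real.exp (-(5 / 8)) ≤ 2 / 3 := by
    rw [Real.exp_neg]
    have h3 := Real.add_one_le_exp (5 / 8 : ℝ)
    have h4 : (3 / 2 : ℝ) ≤ Real.exp (5 / 8) := by linarith
    rw [inv_le_comm₀ (Real.exp_pos _) (by norm_num)]
    norm_num
    linarith
  unfold eo
  rw [← ENNReal.ofReal_add (Real.exp_pos _).le (Real.exp_pos _).le, ← ENNReal.ofReal_one]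
  apply ENNReal.ofReal_le_ofReal
  linarith

/-- The key estimate: negative moments under the null model cost only `T² n`. -/
theorem null_bound [IsProbabilityMeasure μ] (hn : 1 ≤ n) (h : SG μ A) (hT0 : 0 < T)
    (hT : T ≤ 1 / (16 * A)) :
    ∫⁻ ξ, ((Zf μ T (Real.sqrt T • ξ))⁻¹) ^ 4 ∂(gam n) ≤ eo (6 + 1445 * A ^ 2 * T ^ 2 * n) := by
  have hA := h.pos
  have hnR : (1 : ℝ) ≤ n := by exact_mod_cast hn
  have hAT : A * T ≤ 1 / 16 := by
    calc A * T ≤ A * (1 / (16 * A)) := mul_le_mul_of_nonneg_left hT hA.le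
      _ = 1 / 16 := by field_simp
  set ρ := Real.sqrt (8 * n) with hρ
  have hρp : 0 < ρ := Real.sqrt_pos.2 (by positivity)
  have hρ2 : ρ ^ 2 = 8 * n := Real.sq_sqrt (by positivity)
  set L := (A * T * (2 * ρ) ^ 2 - (-(2 * A * T * n))) / ρ with hL
  have hLnn : 0 ≤ L := by
    rw [hL]
    have : 0 ≤ A * T := by positivity
    apply div_nonneg _ hρp.le
    have : 0 ≤ A * T * (2 * ρ) ^ 2 := by positivity
    have : 0 ≤ 2 * A * T * n := by positivity
    linarith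
  have hL2 : L ^ 2 = 144.5 * A ^ 2 * T ^ 2 * n := by
    rw [hL, div_pow, sub_neg_eq_add]
    have e : A * T * (2 * ρ) ^ 2 + 2 * A * T * n = 34 * A * T * n := by
      rw [mul_pow, hρ2]; ring
    rw [e, hρ2]
    have hn0 : (n : ℝ) ≠ 0 := by positivity
    field_simp
    ring
  -- Lipschitz on the ball
  have hlip : ∀ ξ ξ' : E n, ‖ξ‖ ≤ ρ → ‖ξ'‖ ≤ ρ → zeta μ T ξ' - zeta μ T ξ ≤ L * ‖ξ' - ξ‖ := by
    intro ξ ξ' hξ hξ'
    exact lipschitz_of_convex (f := zeta μ T)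
      (fun a b τ h0 h1 => zeta_convex h hT0.le a b h0 h1) hρp (l := -(2 * A * T * n))
      (u := A * T * (2 * ρ) ^ 2) (fun ξ => zeta_ge h hT0.le ξ)
      (fun ξ hξ => by
        refine (zeta_le h hT0.le ξ).trans ?_
        gcongr) ξ ξ' hξ hξ'
  have hLO : LipschitzOnWith (Real.toNNReal L) (zeta μ T) (Metric.closedBall 0 ρ) := by
    apply LipschitzOnWith.of_dist_le_mul
    intro a ha b hb
    rw [Real.coe_toNNReal _ hLnn, Real.dist_eq, dist_eq_norm]
    have ha' : ‖a‖ ≤ ρ := by simpa using ha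
    have hb' : ‖b‖ ≤ ρ := by simpa using hb
    rw [abs_le]
    constructor
    · have := hlip a b ha' hb'
      rw [norm_sub_rev] at this
      linarith
    · have := hlip b a hb' ha'
      linarith
  obtain ⟨g, hg, hgeq⟩ := hLO.extend_real
  have hgm : Measurable g := hg.continuous.measurable
  have hglip : ∀ x y : E n, g x - g y ≤ L * ‖x - y‖ := by
    intro x y
    have := hg.dist_le_mul x y
    rw [Real.coe_toNNReal _ hLnn, Real.dist_eq, dist_eq_norm] at this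
    exact (le_abs_self _).trans this
  have hgneg : ∀ x y : E n, (-g) x - (-g) y ≤ L * ‖x - y‖ := by
    intro x y
    have := hglip y x
    rw [norm_sub_rev] at this
    simp only [Pi.neg_apply]
    linarith
  -- the ball
  set S := {ξ : E n | 8 * (n : ℝ) ≤ ‖ξ‖ ^ 2} with hS
  have hSm : MeasurableSet S := measurableSet_le measurable_const (by fun_prop)
  have hball : ∀ ξ, ξ ∉ S → ξ ∈ Metric.closedBall (0 : E n) ρ := by
    intro ξ hξ
    simp only [hS, Set.mem_ofPred_eq, not_le] at hξ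
    have : ‖ξ‖ ≤ ρ := by
      rw [hρ]
      apply Real.le_sqrt_of_sq_le
      exact hξ.le
    simpa using this
  -- first moment of e^g from below
  have hsplit := lintegral_Zf_gam (μ := μ) (n := n) hT0.le
  rw [← lintegral_add_compl _ hSm] at hsplit
  have hout := lintegral_Zf_out h hT0.le hT
  have hout2 : ∫⁻ ξ in S, Zf μ T (Real.sqrt T • ξ) ∂(gam n) ≤ eo (-(5 / 8)) := by
    refine hout.trans (eo_le ?_)
    nlinarith
  have hin : ∫⁻ ξ in Sᶜ, Zf μ T (Real.sqrt T • ξ) ∂(gam n) ≤ ∫⁻ ξ, eo (g ξ) ∂(gam n) := by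
    calc ∫⁻ ξ in Sᶜ, Zf μ T (Real.sqrt T • ξ) ∂(gam n)
        = ∫⁻ ξ in Sᶜ, eo (g ξ) ∂(gam n) := by
          refine setLIntegral_congr_fun hSm.compl fun ξ hξ => ?_
          rw [← hgeq (hball ξ hξ), eo_zeta h hT0.le]
      _ ≤ ∫⁻ ξ, eo (g ξ) ∂(gam n) := setLIntegral_le_lintegral _ _
  have hlow : eo (-(5 / 4)) ≤ ∫⁻ ξ, eo (g ξ) ∂(gam n) := by
    by_contra hcon
    push Not at hcon
    have h1 : (1 : ℝ≥0∞) ≤ ∫⁻ ξ, eo (g ξ) ∂(gam n) + eo (-(5 / 8)) := by
      rw [← hsplit, add_comm]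
      exact add_le_add hin hout2
    have h2 : ∫⁻ ξ, eo (g ξ) ∂(gam n) + eo (-(5 / 8)) < eo (-(5 / 4)) + eo (-(5 / 8)) :=
      ENNReal.add_lt_add_right (eo_ne_top _) hcon
    exact absurd (lt_of_le_of_lt h1 (lt_of_lt_of_le h2 num_one)) (lt_irrefl _)
  -- negative moments of e^g
  have hprod := gam_lip_prod (F := g) (K := L) hglip hgm
  have hE1 : ∫⁻ ξ, eo (-g ξ) ∂(gam n) ≤ eo (5 / 4 + L ^ 2) := by
    have h1 : eo (-(5 / 4)) * ∫⁻ ξ, eo (-g ξ) ∂(gam n) ≤ eo (L ^ 2) := by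
      refine le_trans ?_ hprod
      gcongr
    calc ∫⁻ ξ, eo (-g ξ) ∂(gam n)
        = eo (5 / 4) * (eo (-(5 / 4)) * ∫⁻ ξ, eo (-g ξ) ∂(gam n)) := by
          rw [← mul_assoc, eo_mul_neg, one_mul]
      _ ≤ eo (5 / 4) * eo (L ^ 2) := by gcongr
      _ = eo (5 / 4 + L ^ 2) := by rw [eo_add]
  have hE2 : ∫⁻ ξ, eo (-(2 * g ξ)) ∂(gam n) ≤ eo (L ^ 2) * (eo (5 / 4 + L ^ 2)) ^ 2 := by
    have := gam_lip_two (F := -g) (K := L) hgneg (by fun_prop)
    simp only [Pi.neg_apply] at this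
    have e : ∀ x, 2 * -g x = -(2 * g x) := fun x => by ring
    simp_rw [e] at this
    refine this.trans ?_
    gcongr
  have hlip2 : ∀ x y : E n, (fun z => -(2 * g z)) x - (fun z => -(2 * g z)) y ≤ (2 * L) * ‖x - y‖ := by
    intro x y
    have := hgneg x y
    simp only [Pi.neg_apply] at this
    simp only
    linarith
  have hE4 : ∫⁻ ξ, eo (-(4 * g ξ)) ∂(gam n) ≤ eo (5 + 10 * L ^ 2) := by
    have := gam_lip_two (F := fun z => -(2 * g z)) (K := 2 * L) hlip2 (by fun_prop)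
    have e : ∀ x, 2 * -(2 * g x) = -(4 * g x) := fun x => by ring
    simp_rw [e] at this
    refine this.trans ?_
    calc eo ((2 * L) ^ 2) * (∫⁻ x, eo (-(2 * g x)) ∂(gam n)) ^ 2
        ≤ eo ((2 * L) ^ 2) * (eo (L ^ 2) * (eo (5 / 4 + L ^ 2)) ^ 2) ^ 2 := by gcongr
      _ = eo (5 + 10 * L ^ 2) := by
        have e1 : (eo (L ^ 2) * (eo (5 / 4 + L ^ 2)) ^ 2) ^ 2 = eo (5 + 6 * L ^ 2) := by
          rw [eo_sq, ← eo_add, eo_sq]
          congr 1
          ring
        rw [e1, ← eo_add]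
        congr 1
        ring
  -- assemble
  have hS0 : gam n S ≤ eo (-(3 / 2) * n) :=
    (gam_tail n (8 * n)).trans (eo_le (le_of_eq (by ring)))
  have hpt : ∀ ξ, ((Zf μ T (Real.sqrt T • ξ))⁻¹) ^ 4 ≤
      eo (-(4 * g ξ)) + S.indicator (fun _ => eo (8 * A * T * n)) ξ := by
    intro ξ
    by_cases hξ : ξ ∈ S
    · have h1 := h.Zf_ge hT0.le (Real.sqrt T • ξ)
      have h2 : (Zf μ T (Real.sqrt T • ξ))⁻¹ ≤ eo (2 * A * T * n) := by
        rw [ENNReal.inv_le_iff_inv_le, eo_inv]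
        exact h1
      refine le_trans ?_ le_add_self
      rw [indicator_of_mem hξ]
      calc ((Zf μ T (Real.sqrt T • ξ))⁻¹) ^ 4 ≤ eo (2 * A * T * n) ^ 4 := by gcongr
        _ = eo (8 * A * T * n) := by
          rw [eo_pow]; congr 1; push_cast; ring
    · have h1 : Zf μ T (Real.sqrt T • ξ) = eo (g ξ) := by
        rw [← hgeq (hball ξ hξ), eo_zeta h hT0.le]
      refine le_trans (le_of_eq ?_) le_self_add
      rw [h1, eo_inv, eo_pow]
      congr 1
      push_cast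
      ring
  calc ∫⁻ ξ, ((Zf μ T (Real.sqrt T • ξ))⁻¹) ^ 4 ∂(gam n)
      ≤ ∫⁻ ξ, (eo (-(4 * g ξ)) + S.indicator (fun _ => eo (8 * A * T * n)) ξ) ∂(gam n) :=
        lintegral_mono hpt
    _ = ∫⁻ ξ, eo (-(4 * g ξ)) ∂(gam n) + ∫⁻ ξ, S.indicator (fun _ => eo (8 * A * T * n)) ξ ∂(gam n) :=
        lintegral_add_left (by fun_prop) _
    _ ≤ eo (5 + 10 * L ^ 2) + 1 := by
        gcongr
        rw [lintegral_indicator hSm, setLIntegral_const]
        calc eo (8 * A * T * n) * gam n S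
            ≤ eo (8 * A * T * n) * eo (-(3 / 2) * n) := by gcongr
          _ = eo (8 * A * T * n + -(3 / 2) * n) := by rw [eo_add]
          _ ≤ eo 0 := by
              apply eo_le
              have hn0 : (0 : ℝ) ≤ n := by positivity
              nlinarith
          _ = 1 := eo_zero
    _ ≤ eo (6 + 1445 * A ^ 2 * T ^ 2 * n) := by
        have e : 5 + 10 * L ^ 2 = 5 + 1445 * A ^ 2 * T ^ 2 * n := by
          rw [hL2]; ring
        rw [e]
        set s := 5 + 1445 * A ^ 2 * T ^ 2 * n with hs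
        have hs0 : 0 ≤ s := by positivity
        have e2 : 6 + 1445 * A ^ 2 * T ^ 2 * n = s + 1 := by rw [hs]; ring
        rw [e2]
        have h1 : (1 : ℝ≥0∞) ≤ eo s := by
          rw [← eo_zero]; exact eo_le hs0
        have h2 : (2 : ℝ≥0∞) ≤ eo 1 := by
          unfold eo
          rw [← ENNReal.ofReal_ofNat]
          apply ENNReal.ofReal_le_ofReal
          have := Real.add_one_le_exp (1 : ℝ)
          linarith
        calc eo s + 1 ≤ eo s + eo s := by gcongr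
          _ = eo s * 2 := by ring
          _ ≤ eo s * eo 1 := by gcongr
          _ = eo (s + 1) := (eo_add s 1).symm

end Vale.Agent.Lib.P245
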