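import Vale.Agent.Lib.P245.Basic
import Vale.Agent.Lib.P262.Ban.PL

/-!
# Midpoint Prekopa-Leindler on Euclidean space and its Lipschitz consequences.
-/

open MeasureTheory Real Set
open scoped ENNReal RealInnerProductSpace

namespace Vale.Agent.Lib.P245

lemma lintegral_E_eq_pi {n : ℕ} (u : E n → ℝ≥0∞) (hu : Measurable u) :
    ∫⁻ x, u x = ∫⁻ x : Fin n → ℝ, u (WithLp.toLp 2 x) := by
  have h := (PiLp.volume_preserving_toLp (Fin n)).lintegral_comp hu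
  exact h.symm

theorem pl_E {n : ℕ} {f g h : E n → ℝ≥0∞}
    (hf : Measurable f) (hg : Measurable g) (hh : Measurable h)
    (H : ∀ x y, f x * g y ≤ h ((1 / 2 : ℝ) • (x + y)) ^ 2) :
    (∫⁻ x, f x) * (∫⁻ x, g x) ≤ (∫⁻ x, h x) ^ 2 := by
  rw [lintegral_E_eq_pi f hf, lintegral_E_eq_pi g hg, lintegral_E_eq_pi h hh]
  have hm : Measurable (WithLp.toLp 2 : (Fin n → ℝ) → E n) :=
    (PiLp.volume_preserving_toLp (Fin n)).measurable
  apply Vale.Agent.Lib.P262.Ban.prekopa_leindler_midpoint (hf.comp hm) (hg.comp hm) (hh.comp hm)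
  intro x y
  have := H (WithLp.toLp 2 x) (WithLp.toLp 2 y)
  simpa using this

/-- Midpoint gain: `ϱ` is `κ`-strongly log-concave. -/
def StrongMid {n : ℕ} (κ : ℝ) (ϱ : E n → ℝ≥0∞) : Prop :=
  ∀ x y, ϱ x * ϱ y * eo (κ / 4 * ‖x - y‖ ^ 2) ≤ ϱ ((1 / 2 : ℝ) • (x + y)) ^ 2

lemma mid_dist {n : ℕ} (x y : E n) : ‖x - (1 / 2 : ℝ) • (x + y)‖ = ‖x - y‖ / 2 := by
  have : x - (1 / 2 : ℝ) • (x + y) = (1 / 2 : ℝ) • (x - y) := by
    rw [smul_add, smul_sub]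
    have hx : x = (1 / 2 : ℝ) • x + (1 / 2 : ℝ) • x := by
      rw [← add_smul]; norm_num
    nth_rewrite 1 [hx]
    abel
  rw [this, norm_smul]
  norm_num
  ring

/-- `c` bound: `K r - κ/4 r² ≤ K²/κ`. -/
lemma quad_bound {K κ r : ℝ} (hκ : 0 < κ) : K * r - κ / 4 * r ^ 2 ≤ K ^ 2 / κ := by
  have h : 0 ≤ (κ / 2 * r - K) ^ 2 / κ := by positivity
  have h2 : (κ / 2 * r - K) ^ 2 / κ = κ / 4 * r ^ 2 - K * r + K ^ 2 / κ := by
    field_simp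
    ring
  linarith

/-- Reverse Holder from Prekopa-Leindler. -/
theorem pl_lip_two {n : ℕ} {κ K : ℝ} (hκ : 0 < κ) {ϱ : E n → ℝ≥0∞} (hϱm : Measurable ϱ)
    (hϱ : StrongMid κ ϱ) {F : E n → ℝ} (hF : ∀ x y, F x - F y ≤ K * ‖x - y‖) (hFm : Measurable F) :
    (∫⁻ x, eo (2 * F x) * ϱ x) * (∫⁻ x, ϱ x) ≤ eo (K ^ 2 / κ) * (∫⁻ x, eo (F x) * ϱ x) ^ 2 := by
  have hmain := pl_E (f := fun x => eo (2 * F x - K ^ 2 / κ) * ϱ x) (g := ϱ)
    (h := fun x => eo (F x) * ϱ x) (by fun_prop) hϱm (by fun_prop) (by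
      intro x y
      set m := (1 / 2 : ℝ) • (x + y) with hm
      have h1 := hϱ x y
      have h2 : eo (2 * F x - K ^ 2 / κ) ≤ eo (2 * F m) * eo (κ / 4 * ‖x - y‖ ^ 2) := by
        rw [← eo_add]
        apply eo_le
        have h3 := hF x m
        rw [hm, mid_dist, ← hm] at h3
        have h4 := quad_bound (K := K) (r := ‖x - y‖) hκ
        nlinarith
      calc eo (2 * F x - K ^ 2 / κ) * ϱ x * ϱ y
          ≤ eo (2 * F m) * eo (κ / 4 * ‖x - y‖ ^ 2) * ϱ x * ϱ y := by gcongr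
        _ = eo (2 * F m) * (ϱ x * ϱ y * eo (κ / 4 * ‖x - y‖ ^ 2)) := by ring
        _ ≤ eo (2 * F m) * ϱ m ^ 2 := by gcongr
        _ = (eo (F m) * ϱ m) ^ 2 := by
          rw [mul_pow, eo_sq])
  have h5 : ∀ x, eo (2 * F x - K ^ 2 / κ) * ϱ x = eo (-(K ^ 2 / κ)) * (eo (2 * F x) * ϱ x) := by
    intro x
    rw [← mul_assoc, ← eo_add]
    congr 2
    ring
  simp_rw [h5] at hmain
  rw [lintegral_const_mul _ (by fun_prop)] at hmain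
  calc (∫⁻ x, eo (2 * F x) * ϱ x) * (∫⁻ x, ϱ x)
      = eo (K ^ 2 / κ) * (eo (-(K ^ 2 / κ)) * (∫⁻ x, eo (2 * F x) * ϱ x) * (∫⁻ x, ϱ x)) := by
        rw [← mul_assoc, ← mul_assoc, ← eo_add]
        simp
    _ ≤ eo (K ^ 2 / κ) * (∫⁻ x, eo (F x) * ϱ x) ^ 2 := by gcongr

/-- Product form from Prekopa-Leindler. -/
theorem pl_lip_prod {n : ℕ} {κ K : ℝ} (hκ : 0 < κ) {ϱ : E n → ℝ≥0∞} (hϱm : Measurable ϱ)
    (hϱ : StrongMid κ ϱ) {F : E n → ℝ} (hF : ∀ x y, F x - F y ≤ K * ‖x - y‖) (hFm : Measurable F) :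
    (∫⁻ x, eo (F x) * ϱ x) * (∫⁻ x, eo (-F x) * ϱ x) ≤ eo (K ^ 2 / κ) * (∫⁻ x, ϱ x) ^ 2 := by
  have hmain := pl_E (f := fun x => eo (F x - K ^ 2 / κ) * ϱ x) (g := fun x => eo (-F x) * ϱ x)
    (h := ϱ) (by fun_prop) (by fun_prop) hϱm (by
      intro x y
      set m := (1 / 2 : ℝ) • (x + y) with hm
      have h1 := hϱ x y
      have h2 : eo (F x - K ^ 2 / κ) * eo (-F y) ≤ eo (κ / 4 * ‖x - y‖ ^ 2) := by
        rw [← eo_add]
        apply eo_le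
        have h3 := hF x y
        have h4 := quad_bound (K := K) (r := ‖x - y‖) hκ
        nlinarith
      calc eo (F x - K ^ 2 / κ) * ϱ x * (eo (-F y) * ϱ y)
          = (eo (F x - K ^ 2 / κ) * eo (-F y)) * (ϱ x * ϱ y) := by ring
        _ ≤ eo (κ / 4 * ‖x - y‖ ^ 2) * (ϱ x * ϱ y) := by gcongr
        _ = ϱ x * ϱ y * eo (κ / 4 * ‖x - y‖ ^ 2) := by ring
        _ ≤ ϱ m ^ 2 := h1)
  have h5 : ∀ x, eo (F x - K ^ 2 / κ) * ϱ x = eo (-(K ^ 2 / κ)) * (eo (F x) * ϱ x) := by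
    intro x
    rw [← mul_assoc, ← eo_add]
    congr 2
    ring
  simp_rw [h5] at hmain
  rw [lintegral_const_mul _ (by fun_prop)] at hmain
  calc (∫⁻ x, eo (F x) * ϱ x) * (∫⁻ x, eo (-F x) * ϱ x)
      = eo (K ^ 2 / κ) * (eo (-(K ^ 2 / κ)) * (∫⁻ x, eo (F x) * ϱ x) * (∫⁻ x, eo (-F x) * ϱ x)) := by
        rw [← mul_assoc, ← mul_assoc, ← eo_add]
        simp
    _ ≤ eo (K ^ 2 / κ) * (∫⁻ x, ϱ x) ^ 2 := by gcongr

lemma mid_norm_sq {n : ℕ} (x y : E n) :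
    ‖(1 / 2 : ℝ) • (x + y)‖ ^ 2 = (‖x‖ ^ 2 + ‖y‖ ^ 2) / 2 - ‖x - y‖ ^ 2 / 4 := by
  rw [norm_smul]
  have h1 := @norm_add_sq_real (E n) _ _ x y
  have h2 := @norm_sub_sq_real (E n) _ _ x y
  rw [mul_pow, h1]
  norm_num
  nlinarith

/-- The Gaussian density is `1`-strongly log-concave. -/
lemma gamDens_strong (n : ℕ) : StrongMid 1 (gamDens n) := by
  intro x y
  apply le_of_eq
  unfold gamDens
  rw [← eo_add, ← eo_add, eo_sq, mid_norm_sq]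
  congr 1
  ring

end Vale.Agent.Lib.P245
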