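import Vale.Agent.Lib.P245.Defect
import Vale.Agent.Lib.P245.Rothaus

/-!
# From the exponential form to smooth test functions.
-/

open MeasureTheory Real Set Filter Topology
open scoped ENNReal RealInnerProductSpace

namespace Vale.Agent.Lib.P245

variable {n : ℕ} {μ : Measure (E n)} {A T : ℝ}

/-- The regularized logarithm. -/
noncomputable def uF (f₀ : E n → ℝ) (c ε : ℝ) (x : E n) : ℝ := Real.log ((f₀ x + c) ^ 2 + ε)

lemma uF_denom_pos (f₀ : E n → ℝ) (c : ℝ) {ε : ℝ} (hε : 0 < ε) (x : E n) :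
    0 < (f₀ x + c) ^ 2 + ε := by positivity

lemma uF_contDiff {f₀ : E n → ℝ} (hf : ContDiff ℝ 2 f₀) (c : ℝ) {ε : ℝ} (hε : 0 < ε) :
    ContDiff ℝ 2 (uF f₀ c ε) := by
  unfold uF
  apply ContDiff.log
  · exact ((hf.add contDiff_const).pow 2).add contDiff_const
  · intro x
    exact (uF_denom_pos f₀ c hε x).ne'

lemma uF_sub_compact {f₀ : E n → ℝ} (hc : HasCompactSupport f₀) (c ε : ℝ) :
    HasCompactSupport fun x => uF f₀ c ε x - Real.log (c ^ 2 + ε) := by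
  apply hc.mono
  rw [Function.support_subset_iff']
  intro x hx
  have h0 : f₀ x = 0 := by simpa using hx
  simp [uF, h0]

lemma fderiv_uF_compact {f₀ : E n → ℝ} (hc : HasCompactSupport f₀) (c ε : ℝ) :
    HasCompactSupport (fderiv ℝ (uF f₀ c ε)) := by
  have h1 := (uF_sub_compact hc c ε).fderiv (𝕜 := ℝ)
  have e : fderiv ℝ (fun x => uF f₀ c ε x - Real.log (c ^ 2 + ε)) = fderiv ℝ (uF f₀ c ε) := by
    funext x
    exact fderiv_sub_const _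
  rwa [e] at h1

lemma uF_bounded {f₀ : E n → ℝ} (hf : ContDiff ℝ 2 f₀) (hc : HasCompactSupport f₀) (c : ℝ) {ε : ℝ}
    (hε : 0 < ε) : ∃ U, ∀ x, |uF f₀ c ε x| ≤ U := by
  have hcont : Continuous fun x => uF f₀ c ε x - Real.log (c ^ 2 + ε) :=
    (uF_contDiff hf c hε).continuous.sub continuous_const
  obtain ⟨C, hC⟩ := hcont.bounded_above_of_compact_support (uF_sub_compact hc c ε)
  refine ⟨C + |Real.log (c ^ 2 + ε)|, fun x => ?_⟩
  have h1 := hC x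
  rw [Real.norm_eq_abs] at h1
  calc |uF f₀ c ε x| = |(uF f₀ c ε x - Real.log (c ^ 2 + ε)) + Real.log (c ^ 2 + ε)| := by
        rw [sub_add_cancel]
    _ ≤ _ := (abs_add_le _ _).trans (by linarith)

lemma continuous_fderiv_uF {f₀ : E n → ℝ} (hf : ContDiff ℝ 2 f₀) (c : ℝ) {ε : ℝ} (hε : 0 < ε) :
    Continuous (fderiv ℝ (uF f₀ c ε)) :=
  (uF_contDiff hf c hε).continuous_fderiv (by norm_num)

lemma fderiv_uF_bounded {f₀ : E n → ℝ} (hf : ContDiff ℝ 2 f₀) (hc : HasCompactSupport f₀) (c : ℝ)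
    {ε : ℝ} (hε : 0 < ε) : ∃ B, ∀ x, |‖fderiv ℝ (uF f₀ c ε) x‖| ≤ B := by
  obtain ⟨C, hC⟩ := (continuous_fderiv_uF hf c hε).bounded_above_of_compact_support
    (fderiv_uF_compact hc c ε)
  exact ⟨C, fun x => by
    rw [abs_of_nonneg (norm_nonneg _)]
    exact hC x⟩

/-- Second order lower bound. -/
lemma uF_second {f₀ : E n → ℝ} (hf : ContDiff ℝ 2 f₀) (hc : HasCompactSupport f₀) (c : ℝ) {ε : ℝ}
    (hε : 0 < ε) : ∃ Λ : ℝ, 0 ≤ Λ ∧ ∀ x v : E n,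
      uF f₀ c ε x - ‖fderiv ℝ (uF f₀ c ε) x‖ * ‖v‖ - Λ * ‖v‖ ^ 2 ≤ uF f₀ c ε (x + v) := by
  have hu := uF_contDiff hf c hε
  have hd : ContDiff ℝ 1 (fderiv ℝ (uF f₀ c ε)) := hu.fderiv_right (by norm_num)
  obtain ⟨C, hC⟩ := ContDiff.lipschitzWith_of_hasCompactSupport (fderiv_uF_compact hc c ε) hd
    (by norm_num)
  refine ⟨C, C.2, fun x v => ?_⟩
  set φ := fderiv ℝ (uF f₀ c ε) x with hφ
  have hb : ∀ z ∈ Metric.closedBall x ‖v‖, ‖fderiv ℝ (uF f₀ c ε) z - φ‖ ≤ C * ‖v‖ := by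
    intro z hz
    have h1 := hC.dist_le_mul z x
    rw [dist_eq_norm] at h1
    refine h1.trans ?_
    have h2 : dist z x ≤ ‖v‖ := hz
    gcongr
  have hMV := (convex_closedBall x ‖v‖).norm_image_sub_le_of_norm_fderiv_le' (𝕜 := ℝ) (f := uF f₀ c ε)
    (fun z _ => (hu.differentiable (by norm_num)) z) hb
    (Metric.mem_closedBall_self (norm_nonneg v))
    (y := x + v) (by simp [dist_eq_norm])
  rw [add_sub_cancel_left, Real.norm_eq_abs] at hMV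
  have h3 := (abs_le.1 hMV).1
  have h4 : |φ v| ≤ ‖φ‖ * ‖v‖ := by
    have := φ.le_opNorm v
    rwa [Real.norm_eq_abs] at this
  have h5 := (abs_le.1 h4).1
  nlinarith

lemma uF_grad {f₀ : E n → ℝ} (hf : ContDiff ℝ 2 f₀) (c : ℝ) {ε : ℝ} (hε : 0 < ε) (x : E n) :
    ‖fderiv ℝ (uF f₀ c ε) x‖ ^ 2 * Real.exp (uF f₀ c ε x) ≤ 4 * ‖fderiv ℝ f₀ x‖ ^ 2 := by
  have hG := uF_denom_pos f₀ c hε x
  set G := (f₀ x + c) ^ 2 + ε with hGdef
  have h0 : HasFDerivAt f₀ (fderiv ℝ f₀ x) x :=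
    ((hf.differentiable (by norm_num)) x).hasFDerivAt
  have h1 : HasFDerivAt (fun z => f₀ z + c) (fderiv ℝ f₀ x) x := h0.add_const c
  have h2 := h1.pow 2
  have h3 := h2.add_const ε
  have h4 := h3.log hG.ne'
  have e1 : fderiv ℝ (uF f₀ c ε) x =
      G⁻¹ • ((2 * (f₀ x + c)) • fderiv ℝ f₀ x) := by
    have := h4.fderiv
    unfold uF
    rw [this]
    have e0 : (2 • (f₀ x + c) ^ (2 - 1)) = 2 * (f₀ x + c) := by
      simp [nsmul_eq_mul]
      ring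
    rw [e0]
  have e2 : ‖fderiv ℝ (uF f₀ c ε) x‖ = G⁻¹ * (|2 * (f₀ x + c)| * ‖fderiv ℝ f₀ x‖) := by
    rw [e1, norm_smul, norm_smul, Real.norm_of_nonneg (by positivity), Real.norm_eq_abs]
  have e3 : Real.exp (uF f₀ c ε x) = G := Real.exp_log hG
  rw [e2, e3]
  have e4 : (G⁻¹ * (|2 * (f₀ x + c)| * ‖fderiv ℝ f₀ x‖)) ^ 2 * G =
      (4 * ((f₀ x + c) ^ 2 / G)) * ‖fderiv ℝ f₀ x‖ ^ 2 := by
    rw [mul_pow, mul_pow, sq_abs]
    field_simp
    ring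
  rw [e4]
  have h5 : (f₀ x + c) ^ 2 / G ≤ 1 := by
    rw [div_le_one hG]
    rw [hGdef]
    linarith
  have h6 : 0 ≤ ‖fderiv ℝ f₀ x‖ ^ 2 := by positivity
  nlinarith

/-- The defective inequality at positive regularization. -/
theorem defective_eps [IsProbabilityMeasure μ] (hn : 1 ≤ n) (h : SG μ A) (hT0 : 0 < T)
    (hT : T ≤ 1 / (16 * A)) {ρ : E n → ℝ}
    (hρm : Measurable ρ) (h0 : ∀ x, 0 ≤ ρ x)
    (hlc : ∀ x z : E n, ∀ t : ℝ, 0 < t → t < 1 → ρ x ^ (1 - t) * ρ z ^ t ≤ ρ ((1 - t) • x + t • z))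
    (hμ : μ = volume.withDensity fun x => ENNReal.ofReal (ρ x))
    {f₀ : E n → ℝ} (hf : ContDiff ℝ 2 f₀) (hc : HasCompactSupport f₀) (c : ℝ) {ε : ℝ} (hε : 0 < ε) :
    entR μ (fun x => (f₀ x + c) ^ 2 + ε) ≤
      6 / T * (∫ x, ‖fderiv ℝ f₀ x‖ ^ 2 ∂μ) +
        3 * (∫ x, ((f₀ x + c) ^ 2 + ε) ∂μ) * (3 + 800 * A ^ 2 * T ^ 2 * n) := by
  obtain ⟨U, hU⟩ := uF_bounded hf hc c hε
  obtain ⟨B, hB⟩ := fderiv_uF_bounded hf hc c hε
  obtain ⟨Λ, hΛ, hH⟩ := uF_second hf hc c hε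
  have hum : Measurable (uF f₀ c ε) := (uF_contDiff hf c hε).continuous.measurable
  have hDm : Measurable fun x => ‖fderiv ℝ (uF f₀ c ε) x‖ :=
    (continuous_fderiv_uF hf c hε).norm.measurable
  have hcore := defective_core hn h hT0 hT hρm h0 hlc hμ hum hDm hU hB hΛ hH
  have e1 : ∀ x, Real.exp (uF f₀ c ε x) = (f₀ x + c) ^ 2 + ε := fun x =>
    Real.exp_log (uF_denom_pos f₀ c hε x)
  -- the gradient term
  have hfd : Continuous (fderiv ℝ f₀) := hf.continuous_fderiv (by norm_num)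
  obtain ⟨C₀, hC₀⟩ := hfd.bounded_above_of_compact_support (hc.fderiv (𝕜 := ℝ))
  have hC₀0 : 0 ≤ C₀ := (norm_nonneg _).trans (hC₀ 0)
  have hi0 : Integrable (fun x => ‖fderiv ℝ f₀ x‖ ^ 2) μ :=
    integrable_of_bdd (hfd.norm.measurable.pow_const 2) (C := C₀ ^ 2) fun x => by
      rw [abs_of_nonneg (by positivity)]
      have := hC₀ x
      gcongr
  have hU0 : 0 ≤ U := (abs_nonneg _).trans (hU 0)
  have hB0 : 0 ≤ B := (abs_nonneg _).trans (hB 0)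
  have hiD : Integrable (fun x => ‖fderiv ℝ (uF f₀ c ε) x‖ ^ 2 * Real.exp (uF f₀ c ε x)) μ := by
    have hmeasD : Measurable fun x => ‖fderiv ℝ (uF f₀ c ε) x‖ ^ 2 * Real.exp (uF f₀ c ε x) :=
      (hDm.pow_const 2).mul (Real.measurable_exp.comp hum)
    apply integrable_of_bdd hmeasD (C := 4 * C₀ ^ 2)
    intro x
    rw [abs_of_nonneg (by positivity)]
    refine (uF_grad hf c hε x).trans ?_
    have := hC₀ x
    gcongr
  have hgrad : ∫ x, ‖fderiv ℝ (uF f₀ c ε) x‖ ^ 2 * Real.exp (uF f₀ c ε x) ∂μ ≤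
      4 * ∫ x, ‖fderiv ℝ f₀ x‖ ^ 2 ∂μ := by
    rw [← integral_const_mul]
    exact integral_mono hiD (hi0.const_mul 4) (uF_grad hf c hε)
  have e2 : ∫ x, uF f₀ c ε x * Real.exp (uF f₀ c ε x) ∂μ =
      ∫ x, ((f₀ x + c) ^ 2 + ε) * Real.log ((f₀ x + c) ^ 2 + ε) ∂μ := by
    refine integral_congr_ae (Eventually.of_forall fun x => ?_)
    simp only
    rw [e1, mul_comm]
    rfl
  have e3 : ∫ x, Real.exp (uF f₀ c ε x) ∂μ = ∫ x, ((f₀ x + c) ^ 2 + ε) ∂μ :=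
    integral_congr_ae (Eventually.of_forall e1)
  rw [e2, e3] at hcore
  unfold entR
  refine hcore.trans ?_
  have h3 : 3 / (2 * T) * ∫ x, ‖fderiv ℝ (uF f₀ c ε) x‖ ^ 2 * Real.exp (uF f₀ c ε x) ∂μ ≤
      3 / (2 * T) * (4 * ∫ x, ‖fderiv ℝ f₀ x‖ ^ 2 ∂μ) :=
    mul_le_mul_of_nonneg_left hgrad (by positivity)
  have e4 : 3 / (2 * T) * (4 * ∫ x, ‖fderiv ℝ f₀ x‖ ^ 2 ∂μ) =
      6 / T * ∫ x, ‖fderiv ℝ f₀ x‖ ^ 2 ∂μ := by
    field_simp
    ring
  linarith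

/-- Continuity of entropy under regularization. -/
lemma entR_tendsto {α : Type*} [MeasurableSpace α] {ν : Measure α} [IsProbabilityMeasure ν]
    {F : α → ℝ} (hFm : Measurable F) {B : ℝ} (hFb : ∀ x, |F x| ≤ B) :
    Tendsto (fun ε : ℝ => entR ν (fun x => F x ^ 2 + ε)) (𝓝[>] 0)
      (𝓝 (entR ν (fun x => F x ^ 2))) := by
  have hB0 : 0 ≤ B := (abs_nonneg _).trans (hFb (nonempty_of_isProbabilityMeasure ν).some)
  have hmeas : ∀ ε : ℝ, Measurable fun x => (F x ^ 2 + ε) * Real.log (F x ^ 2 + ε) := fun ε => by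
    have h1 : Measurable fun x => F x ^ 2 + ε := (hFm.pow_const 2).add_const ε
    exact h1.mul h1.log
  have hsq : ∀ x, F x ^ 2 ≤ B ^ 2 := fun x => by
    rw [← sq_abs]
    have := hFb x
    gcongr
  have hlim1 : Tendsto (fun ε : ℝ => ∫ x, (F x ^ 2 + ε) * Real.log (F x ^ 2 + ε) ∂ν) (𝓝[>] 0)
      (𝓝 (∫ x, F x ^ 2 * Real.log (F x ^ 2) ∂ν)) := by
    apply tendsto_integral_filter_of_dominated_convergence (fun _ => 1 + (B ^ 2 + 1) ^ 2)
    · exact Eventually.of_forall fun ε => (hmeas ε).aestronglyMeasurable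
    · have h1 : ∀ᶠ ε in 𝓝[>] (0 : ℝ), ε < 1 :=
        nhdsWithin_le_nhds (eventually_lt_nhds (by norm_num))
      have h2 : ∀ᶠ ε in 𝓝[>] (0 : ℝ), 0 < ε := eventually_mem_nhdsWithin
      filter_upwards [h1, h2] with ε a1 a2
      refine Eventually.of_forall fun x => ?_
      rw [Real.norm_eq_abs]
      have h3 : 0 ≤ F x ^ 2 + ε := by positivity
      refine (abs_mul_log_le h3).trans ?_
      have h4 : F x ^ 2 + ε ≤ B ^ 2 + 1 := by
        have := hsq x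
        linarith
      gcongr
    · exact integrable_const _
    · refine Eventually.of_forall fun x => ?_
      have h1 : Tendsto (fun ε : ℝ => F x ^ 2 + ε) (𝓝[>] 0) (𝓝 (F x ^ 2 + 0)) :=
        Tendsto.mono_left (by fun_prop : Continuous fun ε : ℝ => F x ^ 2 + ε).continuousAt.tendsto
          nhdsWithin_le_nhds
      rw [add_zero] at h1
      exact (Real.continuous_mul_log.tendsto (F x ^ 2)).comp h1
  have hmean : ∀ ε : ℝ, ∫ x, (F x ^ 2 + ε) ∂ν = (∫ x, F x ^ 2 ∂ν) + ε := fun ε => by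
    have hi : Integrable (fun x => F x ^ 2) ν :=
      integrable_of_bdd (hFm.pow_const 2) (C := B ^ 2) fun x => by
        rw [abs_of_nonneg (by positivity)]
        exact hsq x
    rw [integral_add hi (integrable_const _)]
    simp
  have hlim2 : Tendsto (fun ε : ℝ => (∫ x, (F x ^ 2 + ε) ∂ν) * Real.log (∫ x, (F x ^ 2 + ε) ∂ν))
      (𝓝[>] 0) (𝓝 ((∫ x, F x ^ 2 ∂ν) * Real.log (∫ x, F x ^ 2 ∂ν))) := by
    simp_rw [hmean]
    have h1 : Tendsto (fun ε : ℝ => (∫ x, F x ^ 2 ∂ν) + ε) (𝓝[>] 0) (𝓝 ((∫ x, F x ^ 2 ∂ν) + 0)) :=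
      Tendsto.mono_left (by fun_prop : Continuous fun ε : ℝ => (∫ x, F x ^ 2 ∂ν) + ε).continuousAt.tendsto
        nhdsWithin_le_nhds
    rw [add_zero] at h1
    exact (Real.continuous_mul_log.tendsto _).comp h1
  exact hlim1.sub hlim2

/-- The defective logarithmic Sobolev inequality for `f₀ + c`. -/
theorem defective_lsi [IsProbabilityMeasure μ] (hn : 1 ≤ n) (h : SG μ A) (hT0 : 0 < T)
    (hT : T ≤ 1 / (16 * A)) {ρ : E n → ℝ}
    (hρm : Measurable ρ) (h0 : ∀ x, 0 ≤ ρ x)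
    (hlc : ∀ x z : E n, ∀ t : ℝ, 0 < t → t < 1 → ρ x ^ (1 - t) * ρ z ^ t ≤ ρ ((1 - t) • x + t • z))
    (hμ : μ = volume.withDensity fun x => ENNReal.ofReal (ρ x))
    {f₀ : E n → ℝ} (hf : ContDiff ℝ 2 f₀) (hc : HasCompactSupport f₀) (c : ℝ) :
    entR μ (fun x => (f₀ x + c) ^ 2) ≤
      6 / T * (∫ x, ‖fderiv ℝ f₀ x‖ ^ 2 ∂μ) +
        3 * (∫ x, (f₀ x + c) ^ 2 ∂μ) * (3 + 800 * A ^ 2 * T ^ 2 * n) := by
  have hFc : Continuous fun x => f₀ x + c := hf.continuous.add continuous_const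
  obtain ⟨C, hC⟩ := hf.continuous.bounded_above_of_compact_support hc
  have hFb : ∀ x, |f₀ x + c| ≤ C + |c| := fun x => by
    have := hC x
    rw [Real.norm_eq_abs] at this
    exact (abs_add_le _ _).trans (by linarith)
  have hl := entR_tendsto (ν := μ) hFc.measurable hFb
  have hi : Integrable (fun x => (f₀ x + c) ^ 2) μ :=
    integrable_of_bdd (hFc.measurable.pow_const 2) (C := (C + |c|) ^ 2) fun x => by
      rw [abs_of_nonneg (by positivity), ← sq_abs]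
      have := hFb x
      gcongr
  have hmean : ∀ ε : ℝ, ∫ x, ((f₀ x + c) ^ 2 + ε) ∂μ = (∫ x, (f₀ x + c) ^ 2 ∂μ) + ε := fun ε => by
    rw [integral_add hi (integrable_const _)]
    simp
  have hr : Tendsto (fun ε : ℝ => 6 / T * (∫ x, ‖fderiv ℝ f₀ x‖ ^ 2 ∂μ) +
      3 * ((∫ x, (f₀ x + c) ^ 2 ∂μ) + ε) * (3 + 800 * A ^ 2 * T ^ 2 * n)) (𝓝[>] 0)
      (𝓝 (6 / T * (∫ x, ‖fderiv ℝ f₀ x‖ ^ 2 ∂μ) +
        3 * ((∫ x, (f₀ x + c) ^ 2 ∂μ) + 0) * (3 + 800 * A ^ 2 * T ^ 2 * n))) := by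
    apply Tendsto.mono_left _ nhdsWithin_le_nhds
    apply Continuous.tendsto
    fun_prop
  rw [add_zero] at hr
  apply le_of_tendsto_of_tendsto hl hr
  filter_upwards [eventually_mem_nhdsWithin] with ε hε
  have := defective_eps hn h hT0 hT hρm h0 hlc hμ hf hc c hε
  rwa [hmean] at this

end Vale.Agent.Lib.P245
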