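import Vale.Agent.Lib.P245.PLE

/-!
# Subgaussian measures: exponential moments of the norm, the partition function `Zf`.
-/

open MeasureTheory Real Set
open scoped ENNReal RealInnerProductSpace

namespace Vale.Agent.Lib.P245

/-- The properties of a centered subgaussian measure used in the proof. -/
structure SG {n : ℕ} (μ : Measure (E n)) (A : ℝ) : Prop where
  pos : 0 < A
  mgf : ∀ w : E n, ∫⁻ x, eo ⟪w, x⟫ ∂μ ≤ eo (A * ‖w‖ ^ 2)
  mean : ∀ y : E n, ∫ x, ⟪y, x⟫ ∂μ = 0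

variable {n : ℕ} {μ : Measure (E n)} {A : ℝ}

lemma SG.moment [IsProbabilityMeasure μ] (h : SG μ A) {k : ℝ} (hk0 : 0 ≤ k) (hk : k ≤ 1 / (8 * A)) :
    ∫⁻ x, eo (k * ‖x‖ ^ 2) ∂μ ≤ eo (4 * A * k * n) := by
  have hA := h.pos
  have e1 : ∀ x : E n, eo (k * ‖x‖ ^ 2) = ∫⁻ ξ, eo ⟪Real.sqrt (2 * k) • ξ, x⟫ ∂(gam n) := by
    intro x
    have h1 := lintegral_gam_eo_inner n (Real.sqrt (2 * k) • x)
    have h2 : ‖Real.sqrt (2 * k) • x‖ ^ 2 / 2 = k * ‖x‖ ^ 2 := by
      rw [norm_smul, mul_pow, Real.norm_eq_abs, sq_abs, Real.sq_sqrt (by positivity)]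
      ring
    rw [h2] at h1
    rw [← h1]
    refine lintegral_congr fun ξ => ?_
    rw [inner_smul_left, inner_smul_right]
    simp
  simp_rw [e1]
  rw [lintegral_lintegral_swap (by
    apply Measurable.aemeasurable
    fun_prop)]
  calc ∫⁻ ξ, ∫⁻ x, eo ⟪Real.sqrt (2 * k) • ξ, x⟫ ∂μ ∂(gam n)
      ≤ ∫⁻ ξ, eo ((2 * A * k) * ‖ξ‖ ^ 2) ∂(gam n) := by
        refine lintegral_mono fun ξ => ?_
        refine (h.mgf _).trans (eo_le ?_)
        rw [norm_smul, mul_pow, Real.norm_eq_abs, sq_abs, Real.sq_sqrt (by positivity)]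
        apply le_of_eq
        ring
    _ ≤ eo (2 * (2 * A * k) * n) := by
        apply lintegral_gam_eo_sq n (by positivity)
        have : A * k ≤ 1 / 8 := by
          have := mul_le_mul_of_nonneg_left hk hA.le
          calc A * k ≤ A * (1 / (8 * A)) := this
            _ = 1 / 8 := by field_simp
        linarith
    _ = eo (4 * A * k * n) := by congr 1; ring

lemma jensen_eo [IsProbabilityMeasure μ] {φ : E n → ℝ} (hφ : Integrable φ μ) :
    eo (∫ x, φ x ∂μ) ≤ ∫⁻ x, eo (φ x) ∂μ := by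
  by_cases hfin : ∫⁻ x, eo (φ x) ∂μ = ⊤
  · rw [hfin]; exact le_top
  have hi : Integrable (Real.exp ∘ φ) μ := by
    refine ⟨(Real.continuous_exp.comp_aestronglyMeasurable hφ.1), ?_⟩
    change HasFiniteIntegral (fun x => Real.exp (φ x)) μ
    rw [hasFiniteIntegral_iff_ofReal (Filter.Eventually.of_forall fun x => (Real.exp_pos _).le)]
    exact lt_top_iff_ne_top.2 hfin
  have h := convexOn_exp.map_integral_le (s := Set.univ) Real.continuous_exp.continuousOn
    isClosed_univ (Filter.Eventually.of_forall fun _ => mem_univ _) hφ hi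
  unfold eo
  calc ENNReal.ofReal (Real.exp (∫ x, φ x ∂μ))
      ≤ ENNReal.ofReal (∫ x, Real.exp (φ x) ∂μ) := ENNReal.ofReal_le_ofReal h
    _ = ∫⁻ x, ENNReal.ofReal (Real.exp (φ x)) ∂μ :=
        ofReal_integral_eq_lintegral_ofReal hi
          (Filter.Eventually.of_forall fun x => (Real.exp_pos _).le)

lemma SG.integrable_sq [IsProbabilityMeasure μ] (h : SG μ A) :
    Integrable (fun x : E n => ‖x‖ ^ 2) μ := by
  have hA := h.pos
  have hm := h.moment (k := 1 / (8 * A)) (by positivity) le_rfl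
  set k0 := 1 / (8 * A) with hk0
  have hk0p : 0 < k0 := by positivity
  have hi : Integrable (fun x : E n => Real.exp (k0 * ‖x‖ ^ 2)) μ := by
    refine ⟨(by fun_prop : Measurable fun x : E n => Real.exp (k0 * ‖x‖ ^ 2)).aestronglyMeasurable, ?_⟩
    rw [hasFiniteIntegral_iff_ofReal (Filter.Eventually.of_forall fun x => (Real.exp_pos _).le)]
    exact lt_of_le_of_lt hm (lt_top_iff_ne_top.2 (eo_ne_top _))
  refine (hi.const_mul (1 / k0)).mono' (by fun_prop : Measurable fun x : E n => ‖x‖ ^ 2).aestronglyMeasurable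
    (Filter.Eventually.of_forall fun x => ?_)
  rw [Real.norm_of_nonneg (by positivity)]
  have h1 := Real.add_one_le_exp (k0 * ‖x‖ ^ 2)
  rw [div_mul_eq_mul_div, one_mul, le_div_iff₀ hk0p]
  nlinarith [sq_nonneg ‖x‖]

lemma SG.integrable_inner [IsProbabilityMeasure μ] (h : SG μ A) (y : E n) :
    Integrable (fun x : E n => ⟪y, x⟫) μ := by
  have h1 := h.integrable_sq
  refine ((h1.add (integrable_const (1 : ℝ))).const_mul ‖y‖).mono'
    (by fun_prop : Measurable fun x : E n => ⟪y, x⟫).aestronglyMeasurable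
    (Filter.Eventually.of_forall fun x => ?_)
  rw [Real.norm_eq_abs]
  have h2 := abs_real_inner_le_norm y x
  refine h2.trans ?_
  simp only [Pi.add_apply]
  apply mul_le_mul_of_nonneg_left _ (norm_nonneg y)
  nlinarith [sq_nonneg (‖x‖ - 1)]

lemma SG.sq_mean_le [IsProbabilityMeasure μ] (h : SG μ A) :
    ∫ x, ‖x‖ ^ 2 ∂μ ≤ 4 * A * n := by
  have hA := h.pos
  have hm := h.moment (k := 1 / (8 * A)) (by positivity) le_rfl
  have hj := jensen_eo (μ := μ) (φ := fun x => 1 / (8 * A) * ‖x‖ ^ 2) (h.integrable_sq.const_mul _)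
  have h2 := eo_le_iff.1 (hj.trans hm)
  rw [integral_const_mul] at h2
  have h3 : (0 : ℝ) < 1 / (8 * A) := by positivity
  have h4 : 4 * A * (1 / (8 * A)) * (n : ℝ) = 1 / (8 * A) * (4 * A * n) := by ring
  rw [h4] at h2
  exact le_of_mul_le_mul_left h2 h3

/-- The tilt weight. -/
noncomputable def wt (T : ℝ) (y x : E n) : ℝ≥0∞ := eo (⟪y, x⟫ - T / 2 * ‖x‖ ^ 2)

/-- The partition function. -/
noncomputable def Zf (μ : Measure (E n)) (T : ℝ) (y : E n) : ℝ≥0∞ := ∫⁻ x, wt T y x ∂μ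

lemma measurable_wt_uncurry (T : ℝ) : Measurable fun p : E n × E n => wt T p.1 p.2 := by
  unfold wt
  fun_prop

lemma measurable_wt (T : ℝ) (y : E n) : Measurable (wt T y) := by
  unfold wt
  fun_prop

lemma measurable_Zf (T : ℝ) [SFinite μ] : Measurable (Zf μ T) := by
  unfold Zf
  exact (measurable_wt_uncurry T).lintegral_prod_right'

lemma SG.Zf_le (h : SG μ A) {T : ℝ} (hT : 0 ≤ T) (y : E n) : Zf μ T y ≤ eo (A * ‖y‖ ^ 2) := by
  refine le_trans (lintegral_mono fun x => ?_) (h.mgf y)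
  unfold wt
  apply eo_le
  have : 0 ≤ T / 2 * ‖x‖ ^ 2 := by positivity
  linarith

lemma SG.Zf_ge [IsProbabilityMeasure μ] (h : SG μ A) {T : ℝ} (hT : 0 ≤ T) (y : E n) :
    eo (-(2 * A * T * n)) ≤ Zf μ T y := by
  have hi : Integrable (fun x : E n => ⟪y, x⟫ - T / 2 * ‖x‖ ^ 2) μ :=
    (h.integrable_inner y).sub (h.integrable_sq.const_mul _)
  have hj := jensen_eo hi
  rw [integral_sub (h.integrable_inner y) (h.integrable_sq.const_mul _), h.mean, integral_const_mul] at hj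
  refine le_trans (eo_le ?_) hj
  have := h.sq_mean_le
  nlinarith

lemma Zf_ne_top (h : SG μ A) {T : ℝ} (hT : 0 ≤ T) (y : E n) : Zf μ T y ≠ ⊤ :=
  ne_top_of_le_ne_top (eo_ne_top _) (h.Zf_le hT y)

lemma Zf_ne_zero [IsProbabilityMeasure μ] (h : SG μ A) {T : ℝ} (hT : 0 ≤ T) (y : E n) :
    Zf μ T y ≠ 0 :=
  (lt_of_lt_of_le (eo_pos _) (h.Zf_ge hT y)).ne'

end Vale.Agent.Lib.P245
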